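import Vale.Agent.P159.TM.H215.Var

/-!
# P159, row C3 : size of the local charge functionals of the massive heights

`c3_model`, `xb_model` : slowly varying backgrounds; `c3_all`, `xb_all` : every real background.
-/

set_option linter.all false

open Finset
open scoped Real

namespace Vale.Agent.P159.TM.H215

open Vale.Agent.P159.TM

section trans

variable {V : Type*} [AddCommGroup V] [Fintype V]

/-- translation of the heights -/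
def shE (a : V) : (V → ℤ) ≃ (V → ℤ) where
  toFun h := fun x => h (x + a)
  invFun h := fun x => h (x - a)
  left_inv h := by
    funext x
    show h (x - a + a) = h x
    rw [sub_add_cancel]
  right_inv h := by
    funext x
    show h (x + a - a) = h x
    rw [add_sub_cancel_right]

theorem gr_trans (ε : ℝ) (h : V → ℤ) (f : V → ℝ) (a : V) :
    H870.gr (fun _ => ε) (shE a h) (fun z => f (z + a)) = H870.gr (fun _ => ε) h f := by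
  unfold H870.gr
  congr 2
  exact Fintype.sum_equiv (Equiv.addRight a) _ _ (fun x => rfl)

theorem Zr_trans {w : (V → ℤ) → ℝ} (hw : ∀ h a, w (fun x => h (x + a)) = w h) (ε : ℝ)
    (f : V → ℝ) (a : V) :
    H870.Zr w (fun _ => ε) (fun z => f (z + a)) = H870.Zr w (fun _ => ε) f := by
  unfold H870.Zr
  rw [← (shE a).tsum_eq]
  refine tsum_congr fun h => ?_
  rw [gr_trans]
  congr 1
  exact hw h a

theorem Dg_trans {w : (V → ℤ) → ℝ} (hw : ∀ h a, w (fun x => h (x + a)) = w h) (ε : ℝ)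
    (f : V → ℝ) (a x : V) :
    Dg w (fun _ => ε) (fun z => f (z + a)) x = Dg w (fun _ => ε) f (x + a) := by
  unfold Dg H870.Ex
  rw [Zr_trans hw ε f a]
  congr 3
  rw [← (shE a).tsum_eq]
  refine tsum_congr fun h => ?_
  rw [gr_trans]
  show w (fun x => h (x + a)) * _ * ((h (x + a) : ℤ) : ℝ) = _
  rw [hw h a]

end trans

section per

variable {V : Type*} [Fintype V]

theorem gr_one (m : V → ℝ) (h : V → ℤ) (f : V → ℝ) :
    H870.gr m (h + 1) (fun x => f x + 1) = H870.gr m h f := by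
  unfold H870.gr
  congr 2
  refine Finset.sum_congr rfl fun x _ => ?_
  have : (((h + 1) x : ℤ) : ℝ) = (h x : ℝ) + 1 := by simp
  rw [this]
  ring

theorem Zr_one {w : (V → ℤ) → ℝ} (hs : ∀ h, w (h + 1) = w h) (m f : V → ℝ) :
    H870.Zr w m (fun x => f x + 1) = H870.Zr w m f := by
  unfold H870.Zr
  rw [← (Equiv.addRight (1 : V → ℤ)).tsum_eq]
  refine tsum_congr fun h => ?_
  show w (h + 1) * H870.gr m (h + 1) (fun x => f x + 1) = _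
  rw [gr_one, hs]

theorem Dg_one {w : (V → ℤ) → ℝ} {m : V → ℝ} {Wb : ℝ} (hm : ∀ x, 0 < m x)
    (hw0 : ∀ h, 0 ≤ w h) (hwb : ∀ h, w h ≤ Wb) (hp : ∃ h, 0 < w h)
    (hs : ∀ h, w (h + 1) = w h) (f : V → ℝ) :
    Dg w m (fun x => f x + 1) = Dg w m f := by
  funext x
  have hμ := H104.em_bw hm hw0 hwb hp
  have e1 : H870.Ex w m (fun x => f x + 1) (fun h => (h x : ℝ))
      = H870.Ex w m f (fun h => (h x : ℝ) + 1) := by
    unfold H870.Ex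
    rw [Zr_one hs m f]
    congr 1
    rw [← (Equiv.addRight (1 : V → ℤ)).tsum_eq]
    refine tsum_congr fun h => ?_
    show w (h + 1) * H870.gr m (h + 1) (fun x => f x + 1) * (((h + 1) x : ℤ) : ℝ) = _
    rw [gr_one, hs]
    simp
  unfold Dg
  rw [e1, H104.Ex_eq, H104.Ex_add hμ (gr_site x) (H104.Gr.const 1), H104.Ex_const hμ,
    ← H104.Ex_eq]
  ring

theorem U_one {w : (V → ℤ) → ℝ} (hs : ∀ h, w (h + 1) = w h) (m f : V → ℝ) :
    H104.U w m (fun x => f x + 1) = H104.U w m f := by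
  unfold H104.U
  rw [Zr_one hs m f]

end per

section main

variable {V : Type*} [AddCommGroup V] [Fintype V] [DecidableEq V]

/-- `Vr ≤ 1 / ρ²` for all backgrounds -/
theorem hvar_of {w : (V → ℤ) → ℝ} {m : V → ℝ} (hW : H871.Wt w) (hm : ∀ x, 0 < m x)
    (hs : ∀ h, w (h + 1) = w h) (hS : H871.Sup w) (hev : ∀ h, w (-h) = w h)
    (hG : H871.Gin w m) {χ : V → ℝ} {S ρ : ℝ} (hS0 : 0 < S) (hχS : ∑ x, m x * χ x ^ 2 ≤ S)
    (hρ : ρ ^ 2 * (S * Real.exp (1 + H871.kap w m)) ≤ 1) (g : V → ℝ) :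
    ρ ^ 2 * H870.Vr w m g χ ≤ 1 := by
  have h1 := vr_le hW hm hs hS hev hG g χ (1 / Real.sqrt S)
  have h2 : (1 / Real.sqrt S) ^ 2 = 1 / S := by
    rw [div_pow, one_pow, Real.sq_sqrt hS0.le]
  rw [h2] at h1
  have h3 : 1 / S * ∑ x, m x * χ x ^ 2 ≤ 1 := by
    rw [one_div, inv_mul_le_iff₀ hS0, mul_one]
    exact hχS
  have h4 : Real.exp (1 / S * ∑ x, m x * χ x ^ 2 + H871.kap w m)
      ≤ Real.exp (1 + H871.kap w m) := Real.exp_le_exp.2 (by linarith)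
  have h5 : H870.Vr w m g χ ≤ S * Real.exp (1 + H871.kap w m) := by
    have h6 : 1 / S * H870.Vr w m g χ ≤ Real.exp (1 + H871.kap w m) := by linarith
    rw [one_div, inv_mul_le_iff₀ hS0] at h6
    exact h6
  calc ρ ^ 2 * H870.Vr w m g χ ≤ ρ ^ 2 * (S * Real.exp (1 + H871.kap w m)) :=
        mul_le_mul_of_nonneg_left h5 (sq_nonneg _)
    _ ≤ 1 := hρ

/-- the two-constants function -/
noncomputable def tcA (ρ δ : ℝ) : ℝ := Real.exp 2 * (1 + Real.log (5 / (2 * δ))) * (2 * δ) / ρ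

/-- **C3 for the model, slowly varying backgrounds** -/
theorem c3_model {nm : V → ℝ} (hn : IsNm nm) {T : AddSubgroup V} [DecidablePred (· ∈ T)]
    {rp : V → V} (hcell : IsCell T rp) {w : (V → ℤ) → ℝ} {ε : ℝ} (hε : 0 < ε)
    (hW : H871.Wt w) (hs : ∀ h, w (h + 1) = w h) (hS : H871.Sup w) (hev : ∀ h, w (-h) = w h)
    (hG : H871.Gin w (fun _ => ε)) (htw : ∀ h a, w (fun x => h (x + a)) = w h)
    {L R e : ℝ} (hL : 0 < L) (hR : 0 ≤ R)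
    (he : ∀ g ∈ Lp nm L, ∑ z, ∑ y,
      (if R < nm (z - y) then |Hs w (fun _ => ε) g z y| else 0) ≤ e)
    {x0 : V} {rQ rB rX : ℝ} (hin : ∀ z, nm (z - x0) ≤ rQ → rp z = z) (hr1 : rB + 1 ≤ rQ)
    (hr : rB + R ≤ rQ) (hrX : 0 ≤ rX) (hXB : 2 * (rX + R) ≤ rB)
    {diam : ℝ} (hdiam : ∀ z, nm z ≤ diam)
    {χ : V → ℝ} (hχ1 : ∀ z, |χ z| ≤ 1) (hχ0 : ∀ z, rX < nm (z - x0) → χ z = 0)
    {r ρ S : ℝ} (hρ0 : 0 < ρ) (hρr : 2 * ρ ≤ r)
    (hχL : ∀ t, |t| ≤ r → (fun x => t * χ x) ∈ Lp nm (L / 2))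
    (hS0 : 0 < S) (hχS : ∑ x, ε * χ x ^ 2 ≤ S)
    (hρ : ρ ^ 2 * (S * Real.exp (1 + H871.kap w (fun _ => ε))) ≤ 1)
    {δ : ℝ} (hδ0 : 0 < δ) (hδ1 : δ ≤ 1 / 2)
    (hδ : 3 * ((L * rB + 2 * r) * e)
      + 2 * (H871.kap w (fun _ => ε) / 4 / Fintype.card T) ≤ δ)
    {f : V → ℝ} (hf : f ∈ Lp nm (L / 2)) (hfd : ∀ z, |f z - f x0| ≤ L / 2 * nm (z - x0))
    {c : ℝ} (hc0 : 0 ≤ c) (hc1 : c ≤ 1) :
    |∑ x, χ x * (Dg w (fun _ => ε) (fun y => f y + c) x - Dg w (fun _ => ε) f x)|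
      ≤ tcA ρ δ + 2 * (L * diam * e) := by
  obtain ⟨Wb, hwb⟩ := hW.bdd
  have hm : ∀ x : V, 0 < (fun _ : V => ε) x := fun _ => hε
  refine c3_size (U := H104.U w (fun _ => ε)) (H := Hs w (fun _ => ε)) hn hcell
    (continuous_Dg hm hW.nonneg hwb hW.pos) (hasDerivAt_U_const hm hW.nonneg hwb hW.pos)
    (hasDerivAt_Dg hm hW.nonneg hwb hW.pos) (Dg_trans htw ε)
    (w0 := H871.kap w (fun _ => ε) / 4) ?_ hL hR he hin hr1 hr hrX hXB hdiam hχ1 hχ0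
    (r := r) (by linarith) hχL (A := tcA ρ) (δ := δ) hδ ?_ hf hfd hc0 hc1
  · intro g s
    have h1 := H871.osc_kap hW hm hs hev hG g s 0
    simp only [add_zero] at h1
    exact h1
  · intro g s hs0 hs1 h
    exact an_model hm hW.nonneg hwb hW.pos hρ0 hρr hδ0 hδ1
      (hvar_of hW hm hs hS hev hG hS0 hχS hρ) g s h

/-- **the crude bound, every real background** -/
theorem c3_all {w : (V → ℤ) → ℝ} {m : V → ℝ} (hm : ∀ x, 0 < m x)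
    (hW : H871.Wt w) (hs : ∀ h, w (h + 1) = w h) (hS : H871.Sup w) (hev : ∀ h, w (-h) = w h)
    (hG : H871.Gin w m) {χ : V → ℝ} {ρ S : ℝ} (hρ0 : 0 < ρ)
    (hS0 : 0 < S) (hχS : ∑ x, m x * χ x ^ 2 ≤ S)
    (hρ : ρ ^ 2 * (S * Real.exp (1 + H871.kap w m)) ≤ 1)
    {δ : ℝ} (hδ0 : 0 < δ) (hδ1 : δ ≤ 1 / 2) (hδ : H871.kap w m / 2 ≤ δ)
    (f : V → ℝ) (c : ℝ) :
    |∑ x, χ x * (Dg w m (fun y => f y + c) x - Dg w m f x)| ≤ tcA ρ δ := by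
  obtain ⟨Wb, hwb⟩ := hW.bdd
  refine an_model hm hW.nonneg hwb hW.pos (r := 2 * ρ) hρ0 le_rfl hδ0 hδ1
      (hvar_of hW hm hs hS hev hG hS0 hχS hρ) f c ?_
  intro t _
  have h1 := H871.osc_kap hW hm hs hev hG (fun x => f x + t * χ x) c 0
  have h2 := H871.osc_kap hW hm hs hev hG f c 0
  simp only [add_zero] at h1 h2
  have e1 : H871.U w m = H104.U w m := rfl
  rw [e1] at h1 h2
  rw [abs_le] at h1 h2 ⊢
  constructor <;> linarith [h1.1, h1.2, h2.1, h2.2]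

/-- the charge functional at a slowly varying background -/
theorem xb_model {nm : V → ℝ} (hn : IsNm nm) {T : AddSubgroup V} [DecidablePred (· ∈ T)]
    {rp : V → V} (hcell : IsCell T rp) {w : (V → ℤ) → ℝ} {ε : ℝ} (hε : 0 < ε)
    (hW : H871.Wt w) (hs : ∀ h, w (h + 1) = w h) (hS : H871.Sup w) (hev : ∀ h, w (-h) = w h)
    (hG : H871.Gin w (fun _ => ε)) (htw : ∀ h a, w (fun x => h (x + a)) = w h)
    {L R e : ℝ} (hL : 0 < L) (hR : 0 ≤ R)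
    (he : ∀ g ∈ Lp nm L, ∑ z, ∑ y,
      (if R < nm (z - y) then |Hs w (fun _ => ε) g z y| else 0) ≤ e)
    {x0 : V} {rQ rB rX : ℝ} (hin : ∀ z, nm (z - x0) ≤ rQ → rp z = z) (hr1 : rB + 1 ≤ rQ)
    (hr : rB + R ≤ rQ) (hrX : 0 ≤ rX) (hXB : 2 * (rX + R) ≤ rB)
    {diam : ℝ} (hdiam : ∀ z, nm z ≤ diam)
    {χ : V → ℝ} (hχ1 : ∀ z, |χ z| ≤ 1) (hχ0 : ∀ z, rX < nm (z - x0) → χ z = 0)
    {r ρ S : ℝ} (hρ0 : 0 < ρ) (hρr : 2 * ρ ≤ r)
    (hχL : ∀ t, |t| ≤ r → (fun x => t * χ x) ∈ Lp nm (L / 2))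
    (hS0 : 0 < S) (hχS : ∑ x, ε * χ x ^ 2 ≤ S)
    (hρ : ρ ^ 2 * (S * Real.exp (1 + H871.kap w (fun _ => ε))) ≤ 1)
    {δ : ℝ} (hδ0 : 0 < δ) (hδ1 : δ ≤ 1 / 2)
    (hδ : 3 * ((L * rB + 2 * r) * e)
      + 2 * (H871.kap w (fun _ => ε) / 4 / Fintype.card T) ≤ δ)
    {f : V → ℝ} (hf : f ∈ Lp nm (L / 2)) (hfd : ∀ z, |f z - f x0| ≤ L / 2 * nm (z - x0))
    {k : ℤ} (hk : k ≠ 0) :
    ‖xb (Dg w (fun _ => ε)) k χ f‖ ≤ (tcA ρ δ + 2 * (L * diam * e)) / (2 * π * |(k : ℝ)|) := by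
  obtain ⟨Wb, hwb⟩ := hW.bdd
  have hm : ∀ x : V, 0 < (fun _ : V => ε) x := fun _ => hε
  refine xb_norm_le (continuous_Dg hm hW.nonneg hwb hW.pos) hk ?_
  intro c hc
  exact c3_model hn hcell hε hW hs hS hev hG htw hL hR he hin hr1 hr hrX hXB hdiam hχ1 hχ0
    hρ0 hρr hχL hS0 hχS hρ hδ0 hδ1 hδ hf hfd hc.1 hc.2

/-- the charge functional, every real background -/
theorem xb_all {w : (V → ℤ) → ℝ} {m : V → ℝ} (hm : ∀ x, 0 < m x)
    (hW : H871.Wt w) (hs : ∀ h, w (h + 1) = w h) (hS : H871.Sup w) (hev : ∀ h, w (-h) = w h)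
    (hG : H871.Gin w m) {χ : V → ℝ} {ρ S : ℝ} (hρ0 : 0 < ρ)
    (hS0 : 0 < S) (hχS : ∑ x, m x * χ x ^ 2 ≤ S)
    (hρ : ρ ^ 2 * (S * Real.exp (1 + H871.kap w m)) ≤ 1)
    {δ : ℝ} (hδ0 : 0 < δ) (hδ1 : δ ≤ 1 / 2) (hδ : H871.kap w m / 2 ≤ δ)
    (f : V → ℝ) {k : ℤ} (hk : k ≠ 0) :
    ‖xb (Dg w m) k χ f‖ ≤ tcA ρ δ / (2 * π * |(k : ℝ)|) := by
  obtain ⟨Wb, hwb⟩ := hW.bdd
  refine xb_norm_le (continuous_Dg hm hW.nonneg hwb hW.pos) hk ?_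
  intro c _
  exact c3_all hm hW hs hS hev hG hρ0 hS0 hχS hρ hδ0 hδ1 hδ f c

end main

end Vale.Agent.P159.TM.H215
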