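import Mathlib

/-!
# P159 : zero-sum kernels

For a symmetric kernel `H` on a finite set whose row sums vanish, and for a kernel `T` of three
variables whose sum over each slot vanishes:

* `hess_id`  : `∑ H x y ψ₁ x ψ₂ y = -1/2 ∑ H x y (ψ₁ x - ψ₁ y) (ψ₂ x - ψ₂ y)`;
* `third_id` : `∑ T x y z ψ x ψ y ψ z = -1/2 ∑ T x y z (ψ x - ψ y)² (ψ z - (ψ x + ψ y)/2)`;
* `hess_abs`, `third_abs` : the bounds with absolute values;
* `hess_far` : the cross term of two shells (only pairs `x, y` which see both gradients count);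
* `incr_split` : a function with small mixed second derivatives has nearly additive increments.
-/

set_option linter.all false

open Finset

namespace Vale.Agent.P159.TM.H215

variable {V : Type*} [Fintype V]

theorem hess_id (H : V → V → ℝ) (hsym : ∀ x y, H x y = H y x) (hrow : ∀ x, ∑ y, H x y = 0)
    (f g : V → ℝ) :
    ∑ x, ∑ y, H x y * f x * g y = -(1 / 2) * ∑ x, ∑ y, H x y * ((f x - f y) * (g x - g y)) := by
  have e1 : ∑ x, ∑ y, H x y * (f x * g x) = 0 := by
    apply Finset.sum_eq_zero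
    intro x _
    rw [← Finset.sum_mul, hrow x, zero_mul]
  have e2 : ∑ x, ∑ y, H x y * (f y * g y) = 0 := by
    rw [Finset.sum_comm]
    apply Finset.sum_eq_zero
    intro y _
    have : ∀ x, H x y * (f y * g y) = H y x * (f y * g y) := fun x => by rw [hsym]
    rw [Finset.sum_congr rfl (fun x _ => this x), ← Finset.sum_mul, hrow y, zero_mul]
  have e3 : ∑ x, ∑ y, H x y * (f y * g x) = ∑ x, ∑ y, H x y * (f x * g y) := by
    rw [Finset.sum_comm]
    apply Finset.sum_congr rfl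
    intro x _
    apply Finset.sum_congr rfl
    intro y _
    rw [hsym]
  have e4 : ∑ x, ∑ y, H x y * ((f x - f y) * (g x - g y))
      = ∑ x, ∑ y, H x y * (f x * g x) + ∑ x, ∑ y, H x y * (f y * g y)
        - ∑ x, ∑ y, H x y * (f x * g y) - ∑ x, ∑ y, H x y * (f y * g x) := by
    rw [← Finset.sum_add_distrib, ← Finset.sum_sub_distrib, ← Finset.sum_sub_distrib]
    apply Finset.sum_congr rfl
    intro x _
    rw [← Finset.sum_add_distrib, ← Finset.sum_sub_distrib, ← Finset.sum_sub_distrib]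
    apply Finset.sum_congr rfl
    intro y _
    ring
  rw [e4, e1, e2, e3]
  have e5 : ∑ x, ∑ y, H x y * f x * g y = ∑ x, ∑ y, H x y * (f x * g y) :=
    Finset.sum_congr rfl fun x _ => Finset.sum_congr rfl fun y _ => by ring
  rw [e5]
  ring

theorem third_id (T : V → V → V → ℝ) (h1 : ∀ y z, ∑ x, T x y z = 0)
    (h2 : ∀ x z, ∑ y, T x y z = 0) (h3 : ∀ x y, ∑ z, T x y z = 0) (f : V → ℝ) :
    ∑ x, ∑ y, ∑ z, T x y z * (f x * f y * f z)
      = -(1 / 2) * ∑ x, ∑ y, ∑ z, T x y z * ((f x - f y) ^ 2 * (f z - (f x + f y) / 2)) := by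
  -- terms not depending on `z`
  have e3 : ∀ a : V → V → ℝ, ∑ x, ∑ y, ∑ z, T x y z * a x y = 0 := by
    intro a
    apply Finset.sum_eq_zero
    intro x _
    apply Finset.sum_eq_zero
    intro y _
    rw [← Finset.sum_mul, h3, zero_mul]
  have e2 : ∀ a : V → V → ℝ, ∑ x, ∑ y, ∑ z, T x y z * a x z = 0 := by
    intro a
    apply Finset.sum_eq_zero
    intro x _
    rw [Finset.sum_comm]
    apply Finset.sum_eq_zero
    intro z _
    rw [← Finset.sum_mul, h2, zero_mul]
  have e1 : ∀ a : V → V → ℝ, ∑ x, ∑ y, ∑ z, T x y z * a y z = 0 := by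
    intro a
    rw [Finset.sum_comm]
    apply Finset.sum_eq_zero
    intro y _
    rw [Finset.sum_comm]
    apply Finset.sum_eq_zero
    intro z _
    rw [← Finset.sum_mul, h1, zero_mul]
  have e4 : ∑ x, ∑ y, ∑ z, T x y z * ((f x - f y) ^ 2 * (f z - (f x + f y) / 2))
      = ∑ x, ∑ y, ∑ z, T x y z * ((f x) ^ 2 * f z) + ∑ x, ∑ y, ∑ z, T x y z * ((f y) ^ 2 * f z)
        + ∑ x, ∑ y, ∑ z, T x y z * (-((f x - f y) ^ 2 * ((f x + f y) / 2)))
        - 2 * ∑ x, ∑ y, ∑ z, T x y z * (f x * f y * f z) := by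
    rw [Finset.mul_sum, ← Finset.sum_add_distrib, ← Finset.sum_add_distrib,
      ← Finset.sum_sub_distrib]
    apply Finset.sum_congr rfl
    intro x _
    rw [Finset.mul_sum, ← Finset.sum_add_distrib, ← Finset.sum_add_distrib,
      ← Finset.sum_sub_distrib]
    apply Finset.sum_congr rfl
    intro y _
    rw [Finset.mul_sum, ← Finset.sum_add_distrib, ← Finset.sum_add_distrib,
      ← Finset.sum_sub_distrib]
    apply Finset.sum_congr rfl
    intro z _
    ring
  rw [e4, e2 (fun x z => (f x) ^ 2 * f z), e1 (fun y z => (f y) ^ 2 * f z),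
    e3 (fun x y => -((f x - f y) ^ 2 * ((f x + f y) / 2)))]
  ring

theorem hess_abs (H : V → V → ℝ) (hsym : ∀ x y, H x y = H y x) (hrow : ∀ x, ∑ y, H x y = 0)
    (f g : V → ℝ) :
    |∑ x, ∑ y, H x y * f x * g y|
      ≤ (1 / 2) * ∑ x, ∑ y, |H x y| * (|f x - f y| * |g x - g y|) := by
  rw [hess_id H hsym hrow, abs_mul, abs_neg, abs_of_pos (by norm_num : (0:ℝ) < 1 / 2)]
  apply mul_le_mul_of_nonneg_left _ (by norm_num)
  refine (Finset.abs_sum_le_sum_abs _ _).trans (Finset.sum_le_sum fun x _ => ?_)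
  refine (Finset.abs_sum_le_sum_abs _ _).trans (Finset.sum_le_sum fun y _ => ?_)
  rw [abs_mul, abs_mul]

theorem third_abs (T : V → V → V → ℝ) (h1 : ∀ y z, ∑ x, T x y z = 0)
    (h2 : ∀ x z, ∑ y, T x y z = 0) (h3 : ∀ x y, ∑ z, T x y z = 0) (f : V → ℝ) :
    |∑ x, ∑ y, ∑ z, T x y z * (f x * f y * f z)|
      ≤ (1 / 2) * ∑ x, ∑ y, ∑ z, |T x y z| * (|f x - f y| ^ 2 * |f z - (f x + f y) / 2|) := by
  rw [third_id T h1 h2 h3, abs_mul, abs_neg, abs_of_pos (by norm_num : (0:ℝ) < 1 / 2)]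
  apply mul_le_mul_of_nonneg_left _ (by norm_num)
  refine (Finset.abs_sum_le_sum_abs _ _).trans (Finset.sum_le_sum fun x _ => ?_)
  refine (Finset.abs_sum_le_sum_abs _ _).trans (Finset.sum_le_sum fun y _ => ?_)
  refine (Finset.abs_sum_le_sum_abs _ _).trans (Finset.sum_le_sum fun z _ => ?_)
  rw [abs_mul, abs_mul, abs_pow]

/-- the cross term of two shells: only the pairs in `far` count -/
theorem hess_far (H : V → V → ℝ) (hsym : ∀ x y, H x y = H y x) (hrow : ∀ x, ∑ y, H x y = 0)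
    (f g : V → ℝ) (far : V → V → Prop) [DecidableRel far]
    (hf : ∀ x, |f x| ≤ 1) (hf0 : ∀ x, 0 ≤ f x) (hg : ∀ x, |g x| ≤ 1) (hg0 : ∀ x, 0 ≤ g x)
    (hfar : ∀ x y, f x ≠ f y → g x ≠ g y → far x y) :
    |∑ x, ∑ y, H x y * f x * g y| ≤ (1 / 2) * ∑ x, ∑ y, if far x y then |H x y| else 0 := by
  refine (hess_abs H hsym hrow f g).trans ?_
  apply mul_le_mul_of_nonneg_left _ (by norm_num)
  refine Finset.sum_le_sum fun x _ => Finset.sum_le_sum fun y _ => ?_
  have a1 : |f x - f y| ≤ 1 := by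
    rw [abs_le]
    have := (abs_le.1 (hf x)).2
    have := (abs_le.1 (hf y)).2
    constructor <;> linarith [hf0 x, hf0 y]
  have a2 : |g x - g y| ≤ 1 := by
    rw [abs_le]
    have := (abs_le.1 (hg x)).2
    have := (abs_le.1 (hg y)).2
    constructor <;> linarith [hg0 x, hg0 y]
  by_cases h1 : f x = f y
  · rw [h1, sub_self, abs_zero, zero_mul, mul_zero]
    split_ifs
    · exact abs_nonneg _
    · exact le_refl _
  by_cases h2 : g x = g y
  · rw [h2, sub_self, abs_zero, mul_zero, mul_zero]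
    split_ifs
    · exact abs_nonneg _
    · exact le_refl _
  rw [if_pos (hfar x y h1 h2)]
  have : |f x - f y| * |g x - g y| ≤ 1 := by
    have := mul_le_mul a1 a2 (abs_nonneg _) (by norm_num)
    linarith
  have := mul_le_mul_of_nonneg_left this (abs_nonneg (H x y))
  linarith

/-- mixed second difference of a function of two real variables -/
theorem mixed_diff {φ φ' φ'' : ℝ → ℝ → ℝ} {M : ℝ}
    (h1 : ∀ a ∈ Set.Icc (0 : ℝ) 1, ∀ b ∈ Set.Icc (0 : ℝ) 1,
      HasDerivAt (fun a => φ a b) (φ' a b) a)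
    (h2 : ∀ a ∈ Set.Icc (0 : ℝ) 1, ∀ b ∈ Set.Icc (0 : ℝ) 1,
      HasDerivAt (fun b => φ' a b) (φ'' a b) b)
    (hM : ∀ a ∈ Set.Icc (0 : ℝ) 1, ∀ b ∈ Set.Icc (0 : ℝ) 1, |φ'' a b| ≤ M) :
    |φ 1 1 - φ 1 0 - φ 0 1 + φ 0 0| ≤ M := by
  have z0 : (0 : ℝ) ∈ Set.Icc (0 : ℝ) 1 := by constructor <;> norm_num
  have z1 : (1 : ℝ) ∈ Set.Icc (0 : ℝ) 1 := by constructor <;> norm_num
  have s1 : ∀ a ∈ Set.Icc (0 : ℝ) 1, ‖φ' a 1 - φ' a 0‖ ≤ M := by
    intro a ha
    have := (convex_Icc (0 : ℝ) 1).norm_image_sub_le_of_norm_hasDerivWithin_le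
      (f := fun b => φ' a b) (f' := fun b => φ'' a b) (C := M)
      (fun b hb => (h2 a ha b hb).hasDerivWithinAt) (fun b hb => hM a ha b hb) z0 z1
    simpa using this
  have s2 := (convex_Icc (0 : ℝ) 1).norm_image_sub_le_of_norm_hasDerivWithin_le
      (f := fun a => φ a 1 - φ a 0) (f' := fun a => φ' a 1 - φ' a 0) (C := M)
      (fun a ha => ((h1 a ha 1 z1).sub (h1 a ha 0 z0)).hasDerivWithinAt)
      (fun a ha => s1 a ha) z0 z1
  have e : φ 1 1 - φ 1 0 - φ 0 1 + φ 0 0 = (φ 1 1 - φ 1 0) - (φ 0 1 - φ 0 0) := by ring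
  rw [e]
  simpa using s2

/-- telescoping of increments along a finite family of directions -/
theorem incr_split {E ι : Type*} [AddCommGroup E] [DecidableEq ι] (F : E → ℝ) (g : E) (v : ι → E)
    {M : ℝ} (s : Finset ι)
    (h : ∀ (t : Finset ι) (k : ι), t ⊆ s → k ∈ s → k ∉ t →
      |F (g + ∑ i ∈ t, v i + v k) - F (g + ∑ i ∈ t, v i) - F (g + v k) + F g| ≤ M) :
    |F (g + ∑ i ∈ s, v i) - F g - ∑ i ∈ s, (F (g + v i) - F g)| ≤ s.card * M := by
  have key : ∀ t : Finset ι, t ⊆ s →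
      |F (g + ∑ i ∈ t, v i) - F g - ∑ i ∈ t, (F (g + v i) - F g)| ≤ t.card * M := by
    intro t
    induction t using Finset.induction_on with
    | empty =>
      intro _
      simp
    | insert k t hk ih =>
      intro hs
      have hts : t ⊆ s := (Finset.subset_insert k t).trans hs
      have hks : k ∈ s := hs (Finset.mem_insert_self k t)
      have i1 := ih hts
      have i2 := h t k hts hks hk
      rw [Finset.sum_insert hk, Finset.sum_insert hk, Finset.card_insert_of_notMem hk]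
      have e1 : g + (v k + ∑ i ∈ t, v i) = g + ∑ i ∈ t, v i + v k := by abel
      rw [e1]
      push_cast
      rw [abs_le] at i1 i2 ⊢
      constructor <;> nlinarith [i1.1, i1.2, i2.1, i2.2]
  exact key s (Finset.Subset.refl s)

end Vale.Agent.P159.TM.H215
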