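import Mathlib

/-!
# P159, rows C2/C3 : charges of a function which is 1-periodic in the constants

`V` finite, `U : (V → ℝ) → ℝ` with `U (f + 1) = U f`, gradient `D f x = ∂_x U f`.

* `xm U m f  = - ∫₀¹ U (f + c) e^{-2π i m c} dc`            (the charge `m` part);
* `xb D m χ f = -(2π i m)⁻¹ ∫₀¹ (∑ χ x D (f + c) x) e^{-2π i m c} dc`   (its part in the cell `χ`).

`xm_shift`, `xb_shift` : exact charge; `xm_norm_le`, `xb_norm_le` : sizes from oscillations;
`sum_xb` : a partition of unity `∑ χ_β = 1` gives `∑ xb = xm`; `xb_sub_le` : comparison of two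
backgrounds.
-/

set_option linter.all false

open Finset MeasureTheory intervalIntegral
open scoped Real Interval

namespace Vale.Agent.P159.TM.H215

variable {V : Type*} [Fintype V]

/-- `e^{-2π i m c}` -/
noncomputable def ch (m : ℤ) (c : ℝ) : ℂ := Complex.exp (-(2 * π * m * c : ℝ) * Complex.I)

theorem ch_norm (m : ℤ) (c : ℝ) : ‖ch m c‖ = 1 := by
  unfold ch
  rw [← Complex.ofReal_neg, Complex.norm_exp_ofReal_mul_I]

theorem ch_add (m : ℤ) (a b : ℝ) : ch m (a + b) = ch m a * ch m b := by
  unfold ch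
  rw [← Complex.exp_add]
  congr 1
  push_cast
  ring

theorem ch_one (m : ℤ) : ch m 1 = 1 := by
  unfold ch
  rw [Complex.exp_eq_one_iff]
  refine ⟨-m, ?_⟩
  push_cast
  ring

theorem ch_zero (m : ℤ) : ch m 0 = 1 := by
  unfold ch
  simp

theorem ch_cont (m : ℤ) : Continuous (ch m) := by
  unfold ch
  fun_prop

theorem ch_neg_mul (m : ℤ) (a : ℝ) : ch m (-a) * ch m a = 1 := by
  rw [← ch_add, neg_add_cancel, ch_zero]

/-- the charge `m` part of `-U` -/
noncomputable def xm (U : (V → ℝ) → ℝ) (m : ℤ) (f : V → ℝ) : ℂ :=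
  -∫ c in (0 : ℝ)..1, (U (fun x => f x + c) : ℂ) * ch m c

/-- the part of `xm` in the cell `χ`, `D` = gradient of `U` -/
noncomputable def xb (D : (V → ℝ) → V → ℝ) (m : ℤ) (χ : V → ℝ) (f : V → ℝ) : ℂ :=
  -(1 / (2 * π * m * Complex.I)) *
    ∫ c in (0 : ℝ)..1, ((∑ x, χ x * D (fun y => f y + c) x : ℝ) : ℂ) * ch m c

/-- Fourier coefficient of a `1`-periodic function under translation -/
theorem four_shift {F : ℝ → ℂ} (hF : ∀ c, F (c + 1) = F c) (m : ℤ) (a : ℝ) :
    ∫ c in (0 : ℝ)..1, F (c + a) * ch m c = ch m (-a) * ∫ c in (0 : ℝ)..1, F c * ch m c := by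
  have e1 : ∀ c, F (c + a) * ch m c = ch m (-a) * (F (c + a) * ch m (c + a)) := by
    intro c
    rw [ch_add]
    have := ch_neg_mul m a
    linear_combination (-(F (c + a) * ch m c)) * this
  have e2 : ∫ c in (0 : ℝ)..1, F (c + a) * ch m c
      = ch m (-a) * ∫ c in (0 : ℝ)..1, F (c + a) * ch m (c + a) := by
    rw [← intervalIntegral.integral_const_mul]
    exact intervalIntegral.integral_congr fun c _ => e1 c
  rw [e2, intervalIntegral.integral_comp_add_right (fun c => F c * ch m c) a]
  have hper : Function.Periodic (fun c => F c * ch m c) 1 := by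
    intro c
    show F (c + 1) * ch m (c + 1) = F c * ch m c
    rw [hF, ch_add, ch_one, mul_one]
  have := hper.intervalIntegral_add_eq a 0
  rw [zero_add] at this
  rw [zero_add, add_comm 1 a, this]

theorem xm_shift {U : (V → ℝ) → ℝ} (hU : ∀ f, U (fun x => f x + 1) = U f) (m : ℤ)
    (f : V → ℝ) (a : ℝ) : xm U m (fun x => f x + a) = ch m (-a) * xm U m f := by
  unfold xm
  have hF : ∀ c : ℝ, ((U (fun x => f x + (c + 1)) : ℝ) : ℂ) = ((U (fun x => f x + c) : ℝ) : ℂ) := by
    intro c
    have := hU (fun x => f x + c)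
    rw [← this]
    congr 2
    funext x
    ring
  have := four_shift (F := fun c => ((U (fun x => f x + c) : ℝ) : ℂ)) hF m a
  rw [mul_neg, ← this]
  congr 1
  apply intervalIntegral.integral_congr
  intro c _
  show (U (fun x => f x + a + c) : ℂ) * ch m c = (U (fun x => f x + (c + a)) : ℂ) * ch m c
  have e : (fun x => f x + a + c) = (fun x => f x + (c + a)) := by
    funext x
    ring
  rw [e]

theorem xb_shift {D : (V → ℝ) → V → ℝ} (hD : ∀ f, D (fun x => f x + 1) = D f) (m : ℤ)
    (χ f : V → ℝ) (a : ℝ) : xb D m χ (fun x => f x + a) = ch m (-a) * xb D m χ f := by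
  unfold xb
  have hF : ∀ c : ℝ, ((∑ x, χ x * D (fun y => f y + (c + 1)) x : ℝ) : ℂ)
      = ((∑ x, χ x * D (fun y => f y + c) x : ℝ) : ℂ) := by
    intro c
    have h1 := hD (fun x => f x + c)
    have e : (fun y => f y + (c + 1)) = (fun x => f x + c + 1) := by
      funext x
      ring
    rw [e, h1]
  have := four_shift (F := fun c => ((∑ x, χ x * D (fun y => f y + c) x : ℝ) : ℂ)) hF m a
  rw [mul_left_comm, ← this]
  congr 1
  apply intervalIntegral.integral_congr
  intro c _
  show ((∑ x, χ x * D (fun y => f y + a + c) x : ℝ) : ℂ) * ch m c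
    = ((∑ x, χ x * D (fun y => f y + (c + a)) x : ℝ) : ℂ) * ch m c
  have e : (fun x => f x + a + c) = (fun x => f x + (c + a)) := by
    funext x
    ring
  rw [e]

/-- for `m ≠ 0` the integral of `e^{-2π i m c}` over a period vanishes -/
theorem int_ch {m : ℤ} (hm : m ≠ 0) : ∫ c in (0 : ℝ)..1, ch m c = 0 := by
  have hm' : (-(2 * π * m * Complex.I) : ℂ) ≠ 0 := by
    apply neg_ne_zero.2
    apply mul_ne_zero _ Complex.I_ne_zero
    apply mul_ne_zero _ (by exact_mod_cast hm)
    apply mul_ne_zero (by norm_num)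
    exact_mod_cast Real.pi_ne_zero
  have e : ∀ c : ℝ, ch m c = Complex.exp (-(2 * π * m * Complex.I) * c) := by
    intro c
    unfold ch
    congr 1
    push_cast
    ring
  have e2 : ∫ c in (0 : ℝ)..1, ch m c
      = ∫ c in (0 : ℝ)..1, Complex.exp (-(2 * π * m * Complex.I) * c) :=
    intervalIntegral.integral_congr fun c _ => e c
  rw [e2, integral_exp_mul_complex hm']
  have : Complex.exp (-(2 * π * m * Complex.I) * (1 : ℝ)) = 1 := by
    have := ch_one m
    rw [e 1] at this
    exact this
  rw [this]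
  simp

/-- a Fourier coefficient is bounded by the oscillation -/
theorem four_le {F : ℝ → ℝ} (hF : Continuous F) {m : ℤ} (hm : m ≠ 0) {a s : ℝ}
    (h : ∀ c ∈ Set.Icc (0 : ℝ) 1, |F c - a| ≤ s) :
    ‖∫ c in (0 : ℝ)..1, (F c : ℂ) * ch m c‖ ≤ s := by
  have e : ∫ c in (0 : ℝ)..1, (F c : ℂ) * ch m c
      = ∫ c in (0 : ℝ)..1, ((F c - a : ℝ) : ℂ) * ch m c := by
    have h1 : ∫ c in (0 : ℝ)..1, ((F c - a : ℝ) : ℂ) * ch m c
        = ∫ c in (0 : ℝ)..1, ((F c : ℂ) * ch m c - (a : ℂ) * ch m c) := by
      apply intervalIntegral.integral_congr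
      intro c _
      show ((F c - a : ℝ) : ℂ) * ch m c = (F c : ℂ) * ch m c - (a : ℂ) * ch m c
      push_cast
      ring
    rw [h1, intervalIntegral.integral_sub, intervalIntegral.integral_const_mul, int_ch hm,
      mul_zero, sub_zero]
    · apply Continuous.intervalIntegrable
      exact (Complex.continuous_ofReal.comp hF).mul (ch_cont m)
    · apply Continuous.intervalIntegrable
      exact continuous_const.mul (ch_cont m)
  rw [e]
  have := intervalIntegral.norm_integral_le_of_norm_le_const (a := (0 : ℝ)) (b := 1) (C := s)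
    (f := fun c => ((F c - a : ℝ) : ℂ) * ch m c) ?_
  · simpa using this
  · intro c hc
    rw [Set.uIoc_of_le (by norm_num)] at hc
    rw [norm_mul, ch_norm, mul_one, Complex.norm_real, Real.norm_eq_abs]
    exact h c ⟨hc.1.le, hc.2⟩

theorem xm_norm_le {U : (V → ℝ) → ℝ} (hc : Continuous U) {m : ℤ} (hm : m ≠ 0) {f : V → ℝ}
    {a s : ℝ} (h : ∀ c ∈ Set.Icc (0 : ℝ) 1, |U (fun x => f x + c) - a| ≤ s) :
    ‖xm U m f‖ ≤ s := by
  unfold xm
  rw [norm_neg]
  refine four_le (F := fun c => U (fun x => f x + c)) ?_ hm h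
  exact hc.comp (continuous_pi fun x => continuous_const.add continuous_id)

theorem xb_norm_le {D : (V → ℝ) → V → ℝ} (hc : ∀ x, Continuous fun f => D f x) {m : ℤ}
    (hm : m ≠ 0) {χ f : V → ℝ} {s : ℝ}
    (h : ∀ c ∈ Set.Icc (0 : ℝ) 1, |∑ x, χ x * (D (fun y => f y + c) x - D f x)| ≤ s) :
    ‖xb D m χ f‖ ≤ s / (2 * π * |(m : ℝ)|) := by
  unfold xb
  rw [norm_mul, norm_neg, norm_div, norm_one, norm_mul, norm_mul, norm_mul, Complex.norm_I,
    Complex.norm_intCast, Complex.norm_real, Real.norm_eq_abs, abs_of_pos Real.pi_pos, mul_one,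
    Complex.norm_ofNat]
  rw [div_eq_mul_inv s, mul_comm s, one_div]
  apply mul_le_mul_of_nonneg_left _ (by positivity)
  refine four_le (F := fun c => ∑ x, χ x * D (fun y => f y + c) x) (a := ∑ x, χ x * D f x) ?_ hm ?_
  · refine continuous_finset_sum _ fun x _ => continuous_const.mul ?_
    exact (hc x).comp (continuous_pi fun x => continuous_const.add continuous_id)
  · intro c hc'
    have := h c hc'
    have e : ∑ x, χ x * D (fun y => f y + c) x - ∑ x, χ x * D f x
        = ∑ x, χ x * (D (fun y => f y + c) x - D f x) := by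
      rw [← Finset.sum_sub_distrib]
      exact Finset.sum_congr rfl fun x _ => by ring
    rw [e]
    exact this

/-- comparison of two backgrounds -/
theorem xb_sub_le {D : (V → ℝ) → V → ℝ} (hc : ∀ x, Continuous fun f => D f x) {m : ℤ}
    (hm : m ≠ 0) {χ f g : V → ℝ} {s : ℝ}
    (h : ∀ c ∈ Set.Icc (0 : ℝ) 1,
      |∑ x, χ x * (D (fun y => f y + c) x - D (fun y => g y + c) x)| ≤ s) :
    ‖xb D m χ f - xb D m χ g‖ ≤ s / (2 * π * |(m : ℝ)|) := by
  have hcf : ∀ f : V → ℝ, Continuous fun c : ℝ => ∑ x, χ x * D (fun y => f y + c) x := by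
    intro f
    refine continuous_finset_sum _ fun x _ => continuous_const.mul ?_
    exact (hc x).comp (continuous_pi fun x => continuous_const.add continuous_id)
  unfold xb
  rw [← mul_sub, norm_mul, norm_neg, norm_div, norm_one, norm_mul, norm_mul, norm_mul,
    Complex.norm_I, Complex.norm_intCast, Complex.norm_real, Real.norm_eq_abs,
    abs_of_pos Real.pi_pos, mul_one, Complex.norm_ofNat]
  rw [div_eq_mul_inv s, mul_comm s, one_div]
  apply mul_le_mul_of_nonneg_left _ (by positivity)
  rw [← intervalIntegral.integral_sub]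
  · have e : ∫ c in (0 : ℝ)..1, (((∑ x, χ x * D (fun y => f y + c) x : ℝ) : ℂ) * ch m c
        - ((∑ x, χ x * D (fun y => g y + c) x : ℝ) : ℂ) * ch m c)
        = ∫ c in (0 : ℝ)..1, (((∑ x, χ x * D (fun y => f y + c) x
          - ∑ x, χ x * D (fun y => g y + c) x) : ℝ) : ℂ) * ch m c := by
      apply intervalIntegral.integral_congr
      intro c _
      show ((∑ x, χ x * D (fun y => f y + c) x : ℝ) : ℂ) * ch m c
        - ((∑ x, χ x * D (fun y => g y + c) x : ℝ) : ℂ) * ch m c
        = (((∑ x, χ x * D (fun y => f y + c) x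
          - ∑ x, χ x * D (fun y => g y + c) x) : ℝ) : ℂ) * ch m c
      rw [Complex.ofReal_sub]
      ring
    rw [e]
    refine four_le (F := fun c => ∑ x, χ x * D (fun y => f y + c) x
          - ∑ x, χ x * D (fun y => g y + c) x) (a := 0) ((hcf f).sub (hcf g)) hm ?_
    intro c hc'
    have := h c hc'
    have e : ∑ x, χ x * D (fun y => f y + c) x - ∑ x, χ x * D (fun y => g y + c) x
        = ∑ x, χ x * (D (fun y => f y + c) x - D (fun y => g y + c) x) := by
      rw [← Finset.sum_sub_distrib]
      exact Finset.sum_congr rfl fun x _ => by ring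
    rw [sub_zero, e]
    exact this
  · apply Continuous.intervalIntegrable
    exact (Complex.continuous_ofReal.comp (hcf f)).mul (ch_cont m)
  · apply Continuous.intervalIntegrable
    exact (Complex.continuous_ofReal.comp (hcf g)).mul (ch_cont m)

/-- partition of unity -/
theorem sum_xb {ι : Type*} (s : Finset ι) {U : (V → ℝ) → ℝ} {D : (V → ℝ) → V → ℝ}
    (hU : ∀ f, U (fun x => f x + 1) = U f)
    (hUc : Continuous U) (hc : ∀ x, Continuous fun f => D f x)
    (hD : ∀ (f : V → ℝ) (c : ℝ),
      HasDerivAt (fun c => U (fun x => f x + c)) (∑ x, D (fun y => f y + c) x) c)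
    {m : ℤ} (hm : m ≠ 0) (χ : ι → V → ℝ) (hχ : ∀ x, ∑ i ∈ s, χ i x = 1) (f : V → ℝ) :
    ∑ i ∈ s, xb D m (χ i) f = xm U m f := by
  have hcf : ∀ (χ : V → ℝ), Continuous fun c : ℝ => ∑ x, χ x * D (fun y => f y + c) x := by
    intro χ
    refine continuous_finset_sum _ fun x _ => continuous_const.mul ?_
    exact (hc x).comp (continuous_pi fun x => continuous_const.add continuous_id)
  have hm' : (2 * π * m * Complex.I : ℂ) ≠ 0 := by
    apply mul_ne_zero _ Complex.I_ne_zero
    apply mul_ne_zero _ (by exact_mod_cast hm)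
    apply mul_ne_zero (by norm_num)
    exact_mod_cast Real.pi_ne_zero
  unfold xb
  rw [← Finset.mul_sum]
  have e1 : ∑ i ∈ s, ∫ c in (0 : ℝ)..1, ((∑ x, χ i x * D (fun y => f y + c) x : ℝ) : ℂ) * ch m c
      = ∫ c in (0 : ℝ)..1, ((∑ x, D (fun y => f y + c) x : ℝ) : ℂ) * ch m c := by
    rw [← intervalIntegral.integral_finset_sum]
    · apply intervalIntegral.integral_congr
      intro c _
      show ∑ i ∈ s, ((∑ x, χ i x * D (fun y => f y + c) x : ℝ) : ℂ) * ch m c
        = ((∑ x, D (fun y => f y + c) x : ℝ) : ℂ) * ch m c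
      rw [← Finset.sum_mul, ← Complex.ofReal_sum]
      congr 2
      rw [Finset.sum_comm]
      apply Finset.sum_congr rfl
      intro x _
      rw [← Finset.sum_mul, hχ, one_mul]
    · intro i _
      apply Continuous.intervalIntegrable
      exact (Complex.continuous_ofReal.comp (hcf (χ i))).mul (ch_cont m)
  rw [e1]
  -- integration by parts
  have hder : ∀ c : ℝ, HasDerivAt (fun c => (U (fun x => f x + c) : ℂ) * ch m c)
      (((∑ x, D (fun y => f y + c) x : ℝ) : ℂ) * ch m c
        + (U (fun x => f x + c) : ℂ) * (-(2 * π * m * Complex.I) * ch m c)) c := by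
    intro c
    have h1 := (hD f c).ofReal_comp
    have h2 : HasDerivAt (ch m) (-(2 * π * m * Complex.I) * ch m c) c := by
      unfold ch
      have h3 : HasDerivAt (fun c : ℝ => (-(2 * π * m * c : ℝ) * Complex.I : ℂ))
          (-(2 * π * m * Complex.I)) c := by
        have h4 : HasDerivAt (fun c : ℝ => (c : ℂ)) 1 c := Complex.ofRealCLM.hasDerivAt
        have h5 := h4.const_mul (-(2 * π * m * Complex.I) : ℂ)
        rw [mul_one] at h5
        apply h5.congr_of_eventuallyEq
        apply Filter.Eventually.of_forall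
        intro c
        show (-(2 * π * m * c : ℝ) * Complex.I : ℂ) = -(2 * π * m * Complex.I) * c
        push_cast
        ring
      have h6 := h3.cexp
      rw [mul_comm (-(2 * π * m * Complex.I) : ℂ)]
      exact h6
    exact h1.mul h2
  have hcont1 : Continuous fun c : ℝ => ((∑ x, D (fun y => f y + c) x : ℝ) : ℂ) * ch m c := by
    have := hcf (fun _ => 1)
    simp only [one_mul] at this
    exact (Complex.continuous_ofReal.comp this).mul (ch_cont m)
  have hcont2 : Continuous fun c : ℝ =>
      (U (fun x => f x + c) : ℂ) * (-(2 * π * m * Complex.I) * ch m c) := by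
    have : Continuous fun c : ℝ => U (fun x => f x + c) :=
      hUc.comp (continuous_pi fun x => continuous_const.add continuous_id)
    exact (Complex.continuous_ofReal.comp this).mul (continuous_const.mul (ch_cont m))
  have key := intervalIntegral.integral_eq_sub_of_hasDerivAt (a := (0 : ℝ)) (b := 1)
    (fun c _ => hder c) ((hcont1.add hcont2).intervalIntegrable _ _)
  have e2 : (U (fun x => f x + 1) : ℂ) * ch m 1 - (U (fun x => f x + 0) : ℂ) * ch m 0 = 0 := by
    rw [ch_one, ch_zero, hU]
    simp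
  rw [e2, intervalIntegral.integral_add (hcont1.intervalIntegrable _ _)
    (hcont2.intervalIntegrable _ _)] at key
  have e3 : ∫ c in (0 : ℝ)..1, (U (fun x => f x + c) : ℂ) * (-(2 * π * m * Complex.I) * ch m c)
      = -(2 * π * m * Complex.I) * ∫ c in (0 : ℝ)..1, (U (fun x => f x + c) : ℂ) * ch m c := by
    rw [← intervalIntegral.integral_const_mul]
    apply intervalIntegral.integral_congr
    intro c _
    show (U (fun x => f x + c) : ℂ) * (-(2 * π * m * Complex.I) * ch m c)
      = -(2 * π * m * Complex.I) * ((U (fun x => f x + c) : ℂ) * ch m c)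
    ring
  rw [e3] at key
  unfold xm
  have key' : ∫ c in (0 : ℝ)..1, ((∑ x, D (fun y => f y + c) x : ℝ) : ℂ) * ch m c
      = (2 * π * m * Complex.I) * ∫ c in (0 : ℝ)..1, (U (fun x => f x + c) : ℂ) * ch m c := by
    linear_combination key
  rw [key']
  field_simp

/-- continuity of `xb` in the background -/
theorem xb_cont {D : (V → ℝ) → V → ℝ} (hc : ∀ x, Continuous fun f => D f x) (m : ℤ)
    (χ : V → ℝ) : Continuous fun f => xb D m χ f := by
  unfold xb
  apply continuous_const.mul
  apply intervalIntegral.continuous_parametric_intervalIntegral_of_continuous'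
  refine Continuous.mul ?_ ((ch_cont m).comp continuous_snd)
  apply Complex.continuous_ofReal.comp
  refine continuous_finset_sum _ fun x _ => continuous_const.mul ?_
  exact (hc x).comp (continuous_pi fun y =>
    ((continuous_apply y).comp continuous_fst).add continuous_snd)

end Vale.Agent.P159.TM.H215
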