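import Vale.Agent.P159.TM.H215.Tor2

/-!
# P159, rows C2/C3 on the torus of side `K M ξ` : the final statements

`χ_u = H365.phi ξ 0 u`, `u ∈ (ℤ/KM)²` (hats of side `ξ`), `x₀ = node2 N ξ u`,
`e = (K M)⁴ Cb exp (-cb (R - 2))`.
* `xb_lip` : `‖xb‖ ≤ (tcA ρ δ + L₀ K M e) / (2 π |k|)` for backgrounds of slope `≤ L₀/(4 ξ)`;
* `xb_any` : `‖xb‖ ≤ tcA ρ δ / (2 π |k|)` for every background, `kap / 2 ≤ δ`;
* `Ft` : the clamped functional; `Ft_charge` (exactly charged at EVERY background), `Ft_near`,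
  `Ft_lip`, `Ft_any`;
* `xm_eq_sum` : `xm = ∑ xb χ_u`.
-/

set_option linter.all false

open Finset
open scoped Real

namespace Vale.Agent.P159.TM.H215

open Vale.Agent.P159.TM
open Vale.Agent.P159.TM.H859 (tn rep nz)
open Vale.Agent.P159.TM.H365 (qq rr pt node node2 cor d1 phi)

section hats

variable {N n ξ : ℕ} [NeZero N] [NeZero n]

theorem phi_abs_le (u : ZMod n × ZMod n) (x : ZMod N × ZMod N) : |phi ξ 0 u x| ≤ 1 := by
  rw [abs_of_nonneg (H365.phi_nonneg u x)]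
  exact H365.phi_le_one u x

theorem phi_off (hN : N = n * ξ) (hξ : 0 < ξ) (u : ZMod n × ZMod n) (x : ZMod N × ZMod N)
    (h : 2 * (ξ : ℝ) < tn (x - node2 N ξ u)) : phi ξ 0 u x = 0 := by
  apply H365.phi_eq_zero
  intro hc
  have hc := H365.mem_cor.1 hc
  have h1 : ∀ (y : ZMod N) (v : ZMod n), (v = qq ξ y ∨ v = qq ξ y + 1) →
      ∃ a : ℤ, ((a : ℤ) : ZMod N) = y - node N ξ v ∧ |(a : ℝ)| ≤ ξ := by
    intro y v hv
    have h2 := H365.pt_qq (n := n) hN hξ y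
    have h3 := H365.rr_lt hξ y
    rcases hv with hv | hv
    · refine ⟨(rr ξ y : ℤ) - ((0 : ℕ) : ℤ), ?_, ?_⟩
      · rw [hv, H365.node_eq_pt, ← pt_sub hN, h2]
      · have h4 : ((rr ξ y : ℕ) : ℝ) ≤ ξ := by exact_mod_cast h3.le
        push_cast
        rw [sub_zero, abs_of_nonneg (by positivity)]
        exact h4
    · refine ⟨(rr ξ y : ℤ) - (ξ : ℤ), ?_, ?_⟩
      · rw [hv, H365.node_eq_pt, H365.pt_succ hN, ← pt_sub hN, h2]
      · have h4 : ((rr ξ y : ℕ) : ℝ) ≤ ξ := by exact_mod_cast h3.le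
        have h5 : (0 : ℝ) ≤ ((rr ξ y : ℕ) : ℝ) := by positivity
        push_cast
        rw [abs_le]
        constructor <;> linarith
  obtain ⟨a, ha, ha'⟩ := h1 x.1 u.1 hc.1
  obtain ⟨b, hb, hb'⟩ := h1 x.2 u.2 hc.2
  have h6 := tn_le_of_int (x := x - node2 N ξ u) (a := a) (b := b) (c := (ξ : ℝ))
    (by rw [ha]; rfl) (by rw [hb]; rfl) ha' hb'
  linarith

theorem AA_single (u : ZMod n × ZMod n) (x : ZMod N × ZMod N) :
    H365.AA ξ 0 (Pi.single u 1) x = phi ξ 0 u x := by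
  unfold H365.AA
  rw [Finset.sum_eq_single u]
  · rw [Pi.single_eq_same, one_mul]
  · intro b _ hb
    rw [Pi.single_eq_of_ne hb, zero_mul]
  · intro h'
    exact absurd (Finset.mem_univ _) h'

theorem single_diff (u p q : ZMod n × ZMod n) :
    |(Pi.single u 1 : ZMod n × ZMod n → ℝ) p - (Pi.single u 1 : ZMod n × ZMod n → ℝ) q| ≤ 1 := by
  have h : ∀ p, (Pi.single u 1 : ZMod n × ZMod n → ℝ) p = 0 ∨
      (Pi.single u 1 : ZMod n × ZMod n → ℝ) p = 1 := by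
    intro p
    by_cases hp : p = u
    · right
      rw [hp, Pi.single_eq_same]
    · left
      rw [Pi.single_eq_of_ne hp]
  rcases h p with h1 | h1 <;> rcases h q with h2 | h2 <;> rw [h1, h2] <;> norm_num

theorem phi_nn1 (hN : N = n * ξ) (hξ : 0 < ξ) (u : ZMod n × ZMod n) (x : ZMod N × ZMod N) :
    |phi ξ 0 u (x + (1, 0)) - phi ξ 0 u x| ≤ 1 / (ξ : ℝ) := by
  have h := H365.nn_le1 hN (by omega : 2 * 0 < ξ) (M := 1) (Pi.single u 1) x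
    (fun q2 _ => single_diff u _ _)
  rw [AA_single, AA_single] at h
  simpa using h

theorem phi_nn2 (hN : N = n * ξ) (hξ : 0 < ξ) (u : ZMod n × ZMod n) (x : ZMod N × ZMod N) :
    |phi ξ 0 u (x + (0, 1)) - phi ξ 0 u x| ≤ 1 / (ξ : ℝ) := by
  have h := H365.nn_le2 hN (by omega : 2 * 0 < ξ) (M := 1) (Pi.single u 1) x
    (fun q1 _ => single_diff u _ _)
  rw [AA_single, AA_single] at h
  simpa using h

theorem phi_Lp (hN : N = n * ξ) (hξ : 0 < ξ) (u : ZMod n × ZMod n) {L r : ℝ} (hL : 0 ≤ L)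
    (hr : r / ξ ≤ L) (t : ℝ) (ht : |t| ≤ r) : (fun x => t * phi ξ 0 u x) ∈ Lp (tn (N := N)) L := by
  have hξ' : (0 : ℝ) < ξ := by exact_mod_cast hξ
  have hr0 : 0 ≤ r := (abs_nonneg _).trans ht
  have key : ∀ a b : ℝ, |a - b| ≤ 1 / (ξ : ℝ) → |t * a - t * b| ≤ L := by
    intro a b hab
    rw [← mul_sub, abs_mul]
    refine le_trans (mul_le_mul ht hab (abs_nonneg _) hr0) ?_
    rw [mul_one_div]
    exact hr
  exact Lp_of_nn hL (fun x => key _ _ (phi_nn1 hN hξ u x)) (fun x => key _ _ (phi_nn2 hN hξ u x))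

theorem phi_S (hN : N = n * ξ) (hξ : 0 < ξ) (u : ZMod n × ZMod n) :
    ∑ x : ZMod N × ZMod N, 1 / (ξ : ℝ) ^ 2 * phi ξ 0 u x ^ 2 ≤ 1 := by
  have hξ' : (0 : ℝ) < ξ := by exact_mod_cast hξ
  have h1 : ∑ x : ZMod N × ZMod N, phi ξ 0 u x = (ξ : ℝ) ^ 2 :=
    H365.sum_phi_x hN (by omega : 2 * 0 < ξ) u
  rw [← Finset.mul_sum]
  have h2 : ∑ x : ZMod N × ZMod N, phi ξ 0 u x ^ 2 ≤ (ξ : ℝ) ^ 2 := by
    rw [← h1]
    refine Finset.sum_le_sum fun x _ => ?_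
    have a1 := H365.phi_nonneg (l := ξ) (r := 0) u x
    have a2 := H365.phi_le_one (l := ξ) (r := 0) u x
    nlinarith
  rw [one_div, inv_mul_le_iff₀ (by positivity), mul_one]
  exact h2

end hats

section final

/-- the locality error -/
noncomputable def eLoc (K M : ℕ) (Cb cb R : ℝ) : ℝ :=
  ((K * M : ℕ) : ℝ) ^ 4 * (Cb * Real.exp (-(cb * (R - 2))))

variable {N K M ξ : ℕ} [NeZero N] [NeZero (K * M)]
variable {w : (ZMod N × ZMod N → ℤ) → ℝ}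

/-- the clamped functional -/
noncomputable def Ft (w : (ZMod N × ZMod N → ℤ) → ℝ) (ξ : ℕ) (L₀ R : ℝ) (k : ℤ) {n : ℕ}
    [NeZero n] (u : ZMod n × ZMod n) (f : ZMod N × ZMod N → ℝ) : ℂ :=
  xb (Dg w (SpecC.ms (ξ : ℝ))) k (phi ξ 0 u)
    (H316.cl (L₀ / (4 * ξ)) (fun z => tn (z - node2 N ξ u)) (f (node2 N ξ u)) f (L₀ * (R + 2) / 2))

omit [NeZero (K * M)] in
/-- **exact charge of `Ft`, every real background** -/
theorem Ft_charge {n : ℕ} [NeZero n] (hW : H871.Wt w) (hs : ∀ h, w (h + 1) = w h) (hξ : 0 < ξ)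
    {L₀ R : ℝ} (hL₀ : 0 < L₀) (k : ℤ) (u : ZMod n × ZMod n)
    (g ψ : ZMod N × ZMod N → ℝ) (hψ : ∀ x, tn (x - node2 N ξ u) < 2 * (R + 2) * ξ → ψ x = 1)
    (hR : 0 ≤ R) (t : ℝ) :
    Ft w ξ L₀ R k u (fun x => g x + t * ψ x) = ch k (-t) * Ft w ξ L₀ R k u g := by
  obtain ⟨Wb, hwb⟩ := hW.bdd
  have hξ' : (0 : ℝ) < ξ := by exact_mod_cast hξ
  have hm : ∀ x : ZMod N × ZMod N, 0 < SpecC.ms (N := N) (ξ : ℝ) x := by
    intro x
    unfold SpecC.ms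
    positivity
  unfold Ft
  rw [← xb_shift (Dg_one hm hW.nonneg hwb hW.pos hs)]
  congr 1
  set x0 := node2 N ξ u with hx0
  have h0 : ψ x0 = 1 := by
    apply hψ
    rw [sub_self, tn_zero]
    positivity
  funext z
  have h1 := H316.cl_add_const (L₀ / (4 * ξ)) (fun z => tn (z - x0)) (g x0) g
    (L₀ * (R + 2) / 2) t z
  rw [← h1]
  show H316.cl (L₀ / (4 * ξ)) (fun z => tn (z - x0)) (g x0 + t * ψ x0) _ _ z = _
  rw [h0, mul_one]
  apply H316.cl_congr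
  intro y hy
  have h2 : tn (y - x0) < 2 * (R + 2) * ξ := by
    rw [div_mul_eq_mul_div, div_lt_iff₀ (by positivity)] at hy
    have h3 : L₀ * tn (y - x0) < L₀ * (2 * (R + 2) * ξ) := by
      calc L₀ * tn (y - x0) < L₀ * (R + 2) / 2 * (4 * ξ) := hy
        _ = L₀ * (2 * (R + 2) * ξ) := by ring
    exact lt_of_mul_lt_mul_left h3 hL₀.le
  rw [hψ y h2, mul_one]

/-- **B1** : slowly varying backgrounds -/
theorem xb_lip (hN : N = K * M * ξ) (hM : 0 < M) (hξ : 0 < ξ)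
    (hW : H871.Wt w) (hs : ∀ h, w (h + 1) = w h) (hS : H871.Sup w) (hev : ∀ h, w (-h) = w h)
    (hG : H871.Gin w (SpecC.ms (ξ : ℝ))) (htw : ∀ h a, w (fun x => h (x + a)) = w h)
    {L₀ Cb cb R : ℝ} (hL₀ : 0 < L₀) (hCb : 0 ≤ Cb) (hcb : 0 ≤ cb)
    (hB : SpecC.BOut w ξ (L₀ / ξ) Cb cb) (hR : 2 ≤ R) (hKR : 6 * R + 8 < K)
    {ρ δ : ℝ} (hρ0 : 0 < ρ) (hρ1 : ρ ≤ L₀ / 8) (hρ2 : ρ ≤ Real.exp (-1))
    (hkap : H871.kap w (SpecC.ms (ξ : ℝ)) ≤ 1) (hδ0 : 0 < δ) (hδ1 : δ ≤ 1 / 2)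
    (hδ : 3 * (L₀ * (R + 5 / 2) * eLoc K M Cb cb R)
      + H871.kap w (SpecC.ms (ξ : ℝ)) / (2 * (M : ℝ) ^ 2) ≤ δ)
    (u : ZMod (K * M) × ZMod (K * M)) {f : ZMod N × ZMod N → ℝ}
    (hf : SpecC.LipT (L₀ / (4 * ξ)) f) {k : ℤ} (hk : k ≠ 0) :
    ‖xb (Dg w (SpecC.ms (ξ : ℝ))) k (phi ξ 0 u) f‖
      ≤ (tcA ρ δ + L₀ * K * M * eLoc K M Cb cb R) / (2 * π * |(k : ℝ)|) := by
  have hξ' : (0 : ℝ) < ξ := by exact_mod_cast hξ
  have hM' : (0 : ℝ) < M := by exact_mod_cast hM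
  have hK : 0 < K := by
    rcases Nat.eq_zero_or_pos K with h | h
    · rw [h] at hKR
      norm_num at hKR
      linarith
    · exact h
  have hl : 0 < K * ξ := Nat.mul_pos hK hξ
  have hNl : N = M * (K * ξ) := by rw [hN]; ring
  set e := eLoc K M Cb cb R with he
  set x0 := node2 N ξ u with hx0
  set Lc : ℝ := L₀ / (2 * ξ) with hLc
  have hLc0 : 0 < Lc := by positivity
  have hLc2 : Lc / 2 = L₀ / (4 * ξ) := by
    rw [hLc]
    field_simp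
    norm_num
  have hLcξ : Lc * ξ = L₀ / 2 := by
    rw [hLc]
    field_simp
  have hε : (0 : ℝ) < 1 / (ξ : ℝ) ^ 2 := by positivity
  have key := xb_model (V := ZMod N × ZMod N) isNm_tn (isCell_rp2 hNl hl x0) hε hW hs hS hev hG htw
    (L := Lc) (R := R * ξ) (e := e) hLc0 (by positivity) ?_ (x0 := x0)
    (rQ := (3 * R + 4) * ξ) (rB := (2 * R + 4) * ξ) (rX := 2 * ξ) ?_ ?_ ?_ (by positivity) ?_
    (diam := (N : ℝ)) tn_le_N (χ := phi ξ 0 u) (phi_abs_le u) (phi_off hN hξ u)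
    (r := L₀ / 4) (ρ := ρ) (S := 1) hρ0 (by linarith) ?_ one_pos (phi_S hN hξ u) ?_
    (δ := δ) hδ0 hδ1 ?_ (f := f) ?_ ?_ hk
  · refine key.trans ?_
    apply div_le_div_of_nonneg_right _ (by positivity)
    apply add_le_add le_rfl
    have : 2 * (Lc * (N : ℝ) * e) = L₀ * K * M * e := by
      rw [hN, hLc]
      push_cast
      field_simp
    rw [this]
  · intro g hg
    have hg' : SpecC.LipT (L₀ / ξ) g := by
      intro x y
      have := Lp_lip hLc0.le hg x y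
      have e2 : 2 * Lc = L₀ / ξ := by
        rw [hLc]
        field_simp
      rwa [e2] at this
    exact he_of_BOut hN hξ hW hS hCb hcb hB hR hg'
  · intro z hz
    apply rp2_self hNl hM hl
    refine hz.trans_lt ?_
    push_cast
    nlinarith
  · have h1 : (1 : ℝ) ≤ ξ := by exact_mod_cast hξ
    nlinarith
  · apply le_of_eq
    ring
  · apply le_of_eq
    ring
  · intro t ht
    apply phi_Lp hN hξ u (by positivity) _ t ht
    apply le_of_eq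
    rw [hLc2]
    field_simp
  · rw [one_mul]
    have h1 : ρ ^ 2 ≤ Real.exp (-1) ^ 2 := pow_le_pow_left₀ hρ0.le hρ2 2
    have h2 : Real.exp (1 + H871.kap w (SpecC.ms (ξ : ℝ))) ≤ Real.exp 2 :=
      Real.exp_le_exp.2 (by linarith)
    have h3 : Real.exp (-1) ^ 2 * Real.exp 2 = 1 := by
      rw [← Real.exp_nat_mul, ← Real.exp_add]
      norm_num
    calc ρ ^ 2 * Real.exp (1 + H871.kap w (SpecC.ms (ξ : ℝ)))
        ≤ Real.exp (-1) ^ 2 * Real.exp 2 :=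
          mul_le_mul h1 h2 (Real.exp_pos _).le (by positivity)
      _ = 1 := h3
  · rw [card_TT hNl hl]
    refine le_trans (le_of_eq ?_) hδ
    have e2 : Lc * ((2 * R + 4) * ξ) = L₀ * (R + 2) := by
      calc Lc * ((2 * R + 4) * ξ) = (Lc * ξ) * (2 * R + 4) := by ring
        _ = L₀ * (R + 2) := by rw [hLcξ]; ring
    rw [e2]
    push_cast
    have e3 : 2 * (H871.kap w (SpecC.ms (ξ : ℝ)) / 4 / (M : ℝ) ^ 2)
        = H871.kap w (SpecC.ms (ξ : ℝ)) / (2 * (M : ℝ) ^ 2) := by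
      field_simp
      ring
    have e4 : (H871.kap w (fun _ => 1 / (ξ : ℝ) ^ 2)) = H871.kap w (SpecC.ms (ξ : ℝ)) := rfl
    rw [e4, e3]
    ring
  · rw [hLc2]
    exact Lp_of_lip (by positivity) hf
  · intro z
    rw [hLc2]
    exact hf z x0

omit [NeZero (K * M)] in
/-- **B2** : every background -/
theorem xb_any {n : ℕ} [NeZero n] (hN : N = n * ξ) (hξ : 0 < ξ)
    (hW : H871.Wt w) (hs : ∀ h, w (h + 1) = w h) (hS : H871.Sup w) (hev : ∀ h, w (-h) = w h)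
    (hG : H871.Gin w (SpecC.ms (ξ : ℝ)))
    {ρ δ : ℝ} (hρ0 : 0 < ρ) (hρ2 : ρ ≤ Real.exp (-1))
    (hkap : H871.kap w (SpecC.ms (ξ : ℝ)) ≤ 1) (hδ0 : 0 < δ) (hδ1 : δ ≤ 1 / 2)
    (hδ : H871.kap w (SpecC.ms (ξ : ℝ)) / 2 ≤ δ)
    (u : ZMod n × ZMod n) (f : ZMod N × ZMod N → ℝ) {k : ℤ} (hk : k ≠ 0) :
    ‖xb (Dg w (SpecC.ms (ξ : ℝ))) k (phi ξ 0 u) f‖ ≤ tcA ρ δ / (2 * π * |(k : ℝ)|) := by
  have hξ' : (0 : ℝ) < ξ := by exact_mod_cast hξ
  have hm : ∀ x : ZMod N × ZMod N, 0 < SpecC.ms (N := N) (ξ : ℝ) x := by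
    intro x
    unfold SpecC.ms
    positivity
  refine xb_all hm hW hs hS hev hG hρ0 one_pos (phi_S hN hξ u) ?_ hδ0 hδ1 hδ f hk
  rw [one_mul]
  have h1 : ρ ^ 2 ≤ Real.exp (-1) ^ 2 := pow_le_pow_left₀ hρ0.le hρ2 2
  have h2 : Real.exp (1 + H871.kap w (SpecC.ms (ξ : ℝ))) ≤ Real.exp 2 :=
    Real.exp_le_exp.2 (by linarith)
  have h3 : Real.exp (-1) ^ 2 * Real.exp 2 = 1 := by
    rw [← Real.exp_nat_mul, ← Real.exp_add]
    norm_num
  calc ρ ^ 2 * Real.exp (1 + H871.kap w (SpecC.ms (ξ : ℝ)))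
      ≤ Real.exp (-1) ^ 2 * Real.exp 2 :=
        mul_le_mul h1 h2 (Real.exp_pos _).le (by positivity)
    _ = 1 := h3

omit [NeZero (K * M)] in
/-- the clamped background is Lipschitz with the same constant -/
theorem cl_lip {L a m : ℝ} (hL : 0 ≤ L) {x0 : ZMod N × ZMod N} {f : ZMod N × ZMod N → ℝ}
    (hf : SpecC.LipT L f) :
    SpecC.LipT L (H316.cl L (fun z => tn (z - x0)) a f m) := by
  intro x y
  refine H316.cl_slope' hL m ?_ (hf x y)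
  have := H859.abs_tn_sub_le (x - x0) (y - x0)
  rwa [sub_sub_sub_cancel_right] at this

/-- `Ft` at a slowly varying background -/
theorem Ft_lip (hN : N = K * M * ξ) (hM : 0 < M) (hξ : 0 < ξ)
    (hW : H871.Wt w) (hs : ∀ h, w (h + 1) = w h) (hS : H871.Sup w) (hev : ∀ h, w (-h) = w h)
    (hG : H871.Gin w (SpecC.ms (ξ : ℝ))) (htw : ∀ h a, w (fun x => h (x + a)) = w h)
    {L₀ Cb cb R : ℝ} (hL₀ : 0 < L₀) (hCb : 0 ≤ Cb) (hcb : 0 ≤ cb)
    (hB : SpecC.BOut w ξ (L₀ / ξ) Cb cb) (hR : 2 ≤ R) (hKR : 6 * R + 8 < K)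
    {ρ δ : ℝ} (hρ0 : 0 < ρ) (hρ1 : ρ ≤ L₀ / 8) (hρ2 : ρ ≤ Real.exp (-1))
    (hkap : H871.kap w (SpecC.ms (ξ : ℝ)) ≤ 1) (hδ0 : 0 < δ) (hδ1 : δ ≤ 1 / 2)
    (hδ : 3 * (L₀ * (R + 5 / 2) * eLoc K M Cb cb R)
      + H871.kap w (SpecC.ms (ξ : ℝ)) / (2 * (M : ℝ) ^ 2) ≤ δ)
    (u : ZMod (K * M) × ZMod (K * M)) {f : ZMod N × ZMod N → ℝ}
    (hf : SpecC.LipT (L₀ / (4 * ξ)) f) {k : ℤ} (hk : k ≠ 0) :
    ‖Ft w ξ L₀ R k u f‖ ≤ (tcA ρ δ + L₀ * K * M * eLoc K M Cb cb R) / (2 * π * |(k : ℝ)|) := by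
  have hξ' : (0 : ℝ) < ξ := by exact_mod_cast hξ
  exact xb_lip hN hM hξ hW hs hS hev hG htw hL₀ hCb hcb hB hR hKR hρ0 hρ1 hρ2 hkap hδ0 hδ1 hδ u
    (cl_lip (by positivity) hf) hk

omit [NeZero (K * M)] in
/-- `Ft` at an arbitrary background -/
theorem Ft_any {n : ℕ} [NeZero n] (hN : N = n * ξ) (hξ : 0 < ξ)
    (hW : H871.Wt w) (hs : ∀ h, w (h + 1) = w h) (hS : H871.Sup w) (hev : ∀ h, w (-h) = w h)
    (hG : H871.Gin w (SpecC.ms (ξ : ℝ))) {L₀ R : ℝ}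
    {ρ δ : ℝ} (hρ0 : 0 < ρ) (hρ2 : ρ ≤ Real.exp (-1))
    (hkap : H871.kap w (SpecC.ms (ξ : ℝ)) ≤ 1) (hδ0 : 0 < δ) (hδ1 : δ ≤ 1 / 2)
    (hδ : H871.kap w (SpecC.ms (ξ : ℝ)) / 2 ≤ δ)
    (u : ZMod n × ZMod n) (f : ZMod N × ZMod N → ℝ) {k : ℤ} (hk : k ≠ 0) :
    ‖Ft w ξ L₀ R k u f‖ ≤ tcA ρ δ / (2 * π * |(k : ℝ)|) :=
  xb_any hN hξ hW hs hS hev hG hρ0 hρ2 hkap hδ0 hδ1 hδ u _ hk

/-- `Ft` is close to `xb` at a slowly varying background -/
theorem Ft_near (hN : N = K * M * ξ) (hξ : 0 < ξ)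
    (hW : H871.Wt w) (hS : H871.Sup w) {L₀ Cb cb R : ℝ} (hL₀ : 0 < L₀) (hCb : 0 ≤ Cb)
    (hcb : 0 ≤ cb) (hB : SpecC.BOut w ξ (L₀ / ξ) Cb cb) (hR : 2 ≤ R)
    (u : ZMod (K * M) × ZMod (K * M)) {f : ZMod N × ZMod N → ℝ}
    (hf : SpecC.LipT (L₀ / (4 * ξ)) f) {k : ℤ} (hk : k ≠ 0) :
    ‖xb (Dg w (SpecC.ms (ξ : ℝ))) k (phi ξ 0 u) f - Ft w ξ L₀ R k u f‖
      ≤ (L₀ * K * M * eLoc K M Cb cb R) / (2 * π * |(k : ℝ)|) := by
  classical
  obtain ⟨Wb, hwb⟩ := hW.bdd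
  have hξ' : (0 : ℝ) < ξ := by exact_mod_cast hξ
  have hm : ∀ x : ZMod N × ZMod N, 0 < SpecC.ms (N := N) (ξ : ℝ) x := by
    intro x
    unfold SpecC.ms
    positivity
  set e := eLoc K M Cb cb R with he
  set x0 := node2 N ξ u with hx0
  set Lc : ℝ := L₀ / (2 * ξ) with hLc
  have hLc0 : 0 < Lc := by positivity
  have hLc2 : L₀ / (4 * ξ) ≤ Lc := by
    rw [hLc]
    apply div_le_div_of_nonneg_left hL₀.le (by positivity)
    linarith
  have hL4 : (0 : ℝ) ≤ L₀ / (4 * ξ) := by positivity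
  set g := H316.cl (L₀ / (4 * ξ)) (fun z => tn (z - x0)) (f x0) f (L₀ * (R + 2) / 2) with hg
  have hgL : SpecC.LipT (L₀ / (4 * ξ)) g := cl_lip hL4 hf
  unfold Ft
  refine xb_sub_le (continuous_Dg hm hW.nonneg hwb hW.pos) hk ?_
  intro c _
  have hmem : ∀ f : ZMod N × ZMod N → ℝ, SpecC.LipT (L₀ / (4 * ξ)) f →
      (fun x => f x + c) ∈ Lp (tn (N := N)) Lc := by
    intro f hf
    exact Lp_const (Lp_mono hLc2 (Lp_of_lip hL4 hf)) c
  have h1 := loc_of_hess (D := Dg w (SpecC.ms (ξ : ℝ))) (H := Hs w (SpecC.ms (ξ : ℝ)))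
    (F := Lp (tn (N := N)) Lc) Lp_conv
    (hasDerivAt_Dg hm hW.nonneg hwb hW.pos) (fun z y => R * ξ < tn (z - y)) (e := e) ?_
    (hmem g hgL) (hmem f hf) (M := Lc * N) (by positivity) ?_
    (A := univ.filter (fun z => tn (z - x0) ≤ 2 * (ξ : ℝ))) ?_ (phi ξ 0 u) (phi_abs_le u)
  · have e1 : ∑ z ∈ univ.filter (fun z => tn (z - x0) ≤ 2 * (ξ : ℝ)), phi ξ 0 u z *
          (Dg w (SpecC.ms (ξ : ℝ)) (fun y => f y + c) z
            - Dg w (SpecC.ms (ξ : ℝ)) (fun y => g y + c) z)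
        = ∑ z, phi ξ 0 u z * (Dg w (SpecC.ms (ξ : ℝ)) (fun y => f y + c) z
            - Dg w (SpecC.ms (ξ : ℝ)) (fun y => g y + c) z) := by
      apply Finset.sum_subset (Finset.subset_univ _)
      intro z _ hz
      rw [Finset.mem_filter, not_and] at hz
      rw [phi_off hN hξ u z (not_le.1 (hz (Finset.mem_univ _))), zero_mul]
    rw [e1] at h1
    refine h1.trans ?_
    have : Lc * (N : ℝ) * e = L₀ * K * M * e / 2 := by
      rw [hN, hLc]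
      push_cast
      field_simp
    rw [this]
    have h2 : 0 ≤ L₀ * K * M * e := by
      rw [he]
      unfold eLoc
      positivity
    linarith
  · intro g hg
    have hg' : SpecC.LipT (L₀ / ξ) g := by
      intro x y
      have := Lp_lip hLc0.le hg x y
      have e2 : 2 * Lc = L₀ / ξ := by
        rw [hLc]
        field_simp
      rwa [e2] at this
    exact he_of_BOut hN hξ hW hS hCb hcb hB hR hg'
  · intro y
    have e1 : f y + c - (g y + c) = (f y - f x0) - (g y - f x0) := by ring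
    rw [e1]
    have h2 : |g y - f x0| ≤ |f y - f x0| := H316.abs_cl_sub_le_f _ _ _ _ _
    have h3 := (hf y x0).trans (mul_le_mul_of_nonneg_left (tn_le_N (y - x0)) hL4)
    have h4 := abs_le.1 h3
    have h5 := abs_le.1 (h2.trans h3)
    have h6 : L₀ / (4 * ξ) * (N : ℝ) + L₀ / (4 * ξ) * (N : ℝ) = Lc * N := by
      rw [hLc]
      field_simp
      ring
    rw [abs_le]
    constructor <;> linarith [h4.1, h4.2, h5.1, h5.2]
  · intro z hz y hy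
    rw [Finset.mem_filter] at hz
    have h2 : (R + 2) * ξ < tn (y - x0) := by
      by_contra h
      apply hy
      have h3 : g y = f y := by
        apply H316.cl_eq_self (hf y x0)
        have h4 := not_lt.1 h
        have h5 := mul_le_mul_of_nonneg_left h4 hL4
        have h6 : L₀ / (4 * ξ) * ((R + 2) * ξ) = L₀ * (R + 2) / 4 := by
          field_simp
        rw [h6] at h5
        show 2 * (L₀ / (4 * ξ)) * tn (y - x0) ≤ _
        linarith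
      show g y + c = f y + c
      rw [h3]
    have h3 := H859.tn_add_le (y - z) (z - x0)
    rw [sub_add_sub_cancel] at h3
    have h4 := H859.tn_neg (z - y)
    rw [neg_sub] at h4
    show R * ξ < tn (z - y)
    linarith [hz.2]

/-- the decomposition of the charge `k` part -/
theorem xm_eq_sum {n : ℕ} [NeZero n] (hξ : 0 < ξ)
    (hW : H871.Wt w) (hs : ∀ h, w (h + 1) = w h) {k : ℤ} (hk : k ≠ 0)
    (f : ZMod N × ZMod N → ℝ) :
    ∑ u : ZMod n × ZMod n, xb (Dg w (SpecC.ms (ξ : ℝ))) k (phi ξ 0 u) f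
      = xm (H104.U w (SpecC.ms (ξ : ℝ))) k f := by
  obtain ⟨Wb, hwb⟩ := hW.bdd
  have hξ' : (0 : ℝ) < ξ := by exact_mod_cast hξ
  have hm : ∀ x : ZMod N × ZMod N, 0 < SpecC.ms (N := N) (ξ : ℝ) x := by
    intro x
    unfold SpecC.ms
    positivity
  exact sum_xb univ (U_one hs _) (H104.continuous_U hm hW.nonneg hwb hW.pos)
    (continuous_Dg hm hW.nonneg hwb hW.pos)
    (hasDerivAt_U_const hm hW.nonneg hwb hW.pos) hk (fun u => phi ξ 0 u)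
    (fun x => H365.sum_phi x) f

end final

end Vale.Agent.P159.TM.H215
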