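import Mathlib

/-!
# P159, row C3 : periodic repetition, the cost of a constant shift of a localised background

`V` a finite abelian group (the torus), `T` a subgroup of translations, `rp z` the representative
of `z` in the cell `Q = {z | rp z = z}`.  `U` has gradient `D`, is invariant under translations and
changes by at most `w0` when a constant is added to its argument.  For backgrounds `f₀, f₁` which
differ only inside a ball `B` well inside the cell, and are constant outside `B`,
`|(U (f₁ + c) - U f₁) - (U (f₀ + c) - U f₀)| ≤ 3 e + 2 w0 / |T|`, `e` = locality error.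
-/

set_option linter.all false

open Finset MeasureTheory intervalIntegral
open scoped Interval

namespace Vale.Agent.P159.TM.H215

section cell

variable {V : Type*} [AddCommGroup V] [Fintype V] [DecidableEq V]

/-- `rp` picks a representative modulo the subgroup `T` -/
structure IsCell (T : AddSubgroup V) (rp : V → V) : Prop where
  mem : ∀ z, z - rp z ∈ T
  per : ∀ z, ∀ a ∈ T, rp (z + a) = rp z

theorem IsCell.idem {T : AddSubgroup V} {rp : V → V} (h : IsCell T rp) (z : V) :
    rp (rp z) = rp z := by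
  have := h.per z (-(z - rp z)) (T.neg_mem (h.mem z))
  rw [neg_sub, add_sub_cancel] at this
  exact this

/-- a function of `rp z` summed over the torus -/
theorem IsCell.sum_eq {T : AddSubgroup V} [DecidablePred (· ∈ T)] {rp : V → V} (h : IsCell T rp)
    (g : V → ℝ) :
    ∑ z, g (rp z) = (Fintype.card T : ℝ) * ∑ q ∈ univ.filter (fun q => rp q = q), g q := by
  have h1 : ∑ z, g (rp z) = ∑ q ∈ univ.filter (fun q => rp q = q),
      ∑ z ∈ univ.filter (fun z => rp z = q), g (rp z) := by
    refine (Finset.sum_fiberwise_of_maps_to ?_ _).symm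
    intro z _
    rw [Finset.mem_filter]
    exact ⟨Finset.mem_univ _, h.idem z⟩
  rw [h1, Finset.mul_sum]
  apply Finset.sum_congr rfl
  intro q hq
  rw [Finset.mem_filter] at hq
  have h2 : ∑ z ∈ univ.filter (fun z => rp z = q), g (rp z)
      = ∑ z ∈ univ.filter (fun z => rp z = q), g q := by
    apply Finset.sum_congr rfl
    intro z hz
    rw [Finset.mem_filter] at hz
    rw [hz.2]
  rw [h2, Finset.sum_const, nsmul_eq_mul]
  congr 2
  rw [← Finset.card_univ (α := T)]
  symm
  apply Finset.card_bij (fun (a : T) _ => q + (a : V))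
  · intro a _
    rw [Finset.mem_filter]
    refine ⟨Finset.mem_univ _, ?_⟩
    rw [h.per q a a.2, hq.2]
  · intro a _ b _ hab
    have : (a : V) = b := add_left_cancel hab
    exact Subtype.ext this
  · intro z hz
    rw [Finset.mem_filter] at hz
    refine ⟨⟨z - q, ?_⟩, Finset.mem_univ _, ?_⟩
    · rw [← hz.2]
      exact h.mem z
    · show q + (z - q) = z
      abel

/-- the gradient at a `T`-periodic background is `T`-periodic -/
theorem grad_per {T : AddSubgroup V} {rp : V → V} (h : IsCell T rp)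
    {D : (V → ℝ) → V → ℝ} (htr : ∀ f a x, D (fun z => f (z + a)) x = D f (x + a))
    (f : V → ℝ) (c : ℝ) (z : V) :
    D (fun z => f (rp z) + c) z = D (fun z => f (rp z) + c) (rp z) := by
  have h1 := htr (fun z => f (rp z) + c) (z - rp z) (rp z)
  rw [add_sub_cancel] at h1
  rw [← h1]
  have e : (fun w => f (rp (w + (z - rp z))) + c) = (fun w => f (rp w) + c) := by
    funext w
    rw [h.per w _ (h.mem z)]
  show D (fun w => f (rp (w + (z - rp z))) + c) (rp z) = D (fun w => f (rp w) + c) (rp z)
  rw [e]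

end cell

section main

variable {V : Type*} [AddCommGroup V] [Fintype V] [DecidableEq V]

/-- the cell part of the cost of adding a constant at a periodic background -/
theorem cell_int {T : AddSubgroup V} [DecidablePred (· ∈ T)] {rp : V → V} (h : IsCell T rp)
    {U : (V → ℝ) → ℝ} {D : (V → ℝ) → V → ℝ} (hc : ∀ x, Continuous fun f => D f x)
    (hD : ∀ (f : V → ℝ) (c : ℝ),
      HasDerivAt (fun c => U (fun x => f x + c)) (∑ x, D (fun y => f y + c) x) c)
    (htr : ∀ f a x, D (fun z => f (z + a)) x = D f (x + a))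
    {w0 : ℝ} (hosc : ∀ (f : V → ℝ) (c : ℝ), |U (fun x => f x + c) - U f| ≤ w0)
    (f : V → ℝ) (c : ℝ) :
    |∫ s in (0 : ℝ)..c, ∑ q ∈ univ.filter (fun q => rp q = q), D (fun z => f (rp z) + s) q|
      ≤ w0 / Fintype.card T := by
  have hcard : (0 : ℝ) < Fintype.card T := by
    have : 0 < Fintype.card T := Fintype.card_pos
    exact_mod_cast this
  have e1 : ∀ s : ℝ, ∑ q ∈ univ.filter (fun q => rp q = q), D (fun z => f (rp z) + s) q
      = (Fintype.card T : ℝ)⁻¹ * ∑ z, D (fun z => f (rp z) + s) z := by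
    intro s
    have h1 : ∑ z, D (fun z => f (rp z) + s) z = ∑ z, D (fun z => f (rp z) + s) (rp z) :=
      Finset.sum_congr rfl fun z _ => grad_per h htr f s z
    rw [h1, h.sum_eq (fun q => D (fun z => f (rp z) + s) q)]
    field_simp
  have hcont : Continuous fun s : ℝ => ∑ z, D (fun z => f (rp z) + s) z := by
    refine continuous_finset_sum _ fun x _ => ?_
    exact (hc x).comp (continuous_pi fun x => continuous_const.add continuous_id)
  have e2 : ∫ s in (0 : ℝ)..c, ∑ q ∈ univ.filter (fun q => rp q = q), D (fun z => f (rp z) + s) q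
      = (Fintype.card T : ℝ)⁻¹ * (U (fun z => f (rp z) + c) - U (fun z => f (rp z) + 0)) := by
    rw [intervalIntegral.integral_congr (fun s _ => e1 s), intervalIntegral.integral_const_mul]
    congr 1
    exact intervalIntegral.integral_eq_sub_of_hasDerivAt (fun s _ => hD (fun z => f (rp z)) s)
      (hcont.intervalIntegrable _ _)
  rw [e2, abs_mul, abs_of_pos (inv_pos.2 hcard), div_eq_inv_mul]
  apply mul_le_mul_of_nonneg_left _ (inv_pos.2 hcard).le
  have := hosc (fun z => f (rp z)) c
  simpa using this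

/-- **the cost of a constant, localised** -/
theorem shift_cost {T : AddSubgroup V} [DecidablePred (· ∈ T)] {rp : V → V} (h : IsCell T rp)
    {U : (V → ℝ) → ℝ} {D : (V → ℝ) → V → ℝ} (hc : ∀ x, Continuous fun f => D f x)
    (hD : ∀ (f : V → ℝ) (c : ℝ),
      HasDerivAt (fun c => U (fun x => f x + c)) (∑ x, D (fun y => f y + c) x) c)
    (htr : ∀ f a x, D (fun z => f (z + a)) x = D f (x + a))
    {w0 : ℝ} (hosc : ∀ (f : V → ℝ) (c : ℝ), |U (fun x => f x + c) - U f| ≤ w0)
    {f₀ f₁ : V → ℝ} {e : ℝ}
    (hout : ∀ s ∈ Set.Icc (0 : ℝ) 1, ∑ z ∈ univ.filter (fun q => ¬ rp q = q),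
      |D (fun y => f₁ y + s) z - D (fun y => f₀ y + s) z| ≤ e)
    (hin0 : ∀ s ∈ Set.Icc (0 : ℝ) 1, ∑ z ∈ univ.filter (fun q => rp q = q),
      |D (fun y => f₀ y + s) z - D (fun y => f₀ (rp y) + s) z| ≤ e)
    (hin1 : ∀ s ∈ Set.Icc (0 : ℝ) 1, ∑ z ∈ univ.filter (fun q => rp q = q),
      |D (fun y => f₁ y + s) z - D (fun y => f₁ (rp y) + s) z| ≤ e)
    {c : ℝ} (hc0 : 0 ≤ c) (hc1 : c ≤ 1) :
    |(U (fun x => f₁ x + c) - U f₁) - (U (fun x => f₀ x + c) - U f₀)|
      ≤ 3 * e + 2 * (w0 / Fintype.card T) := by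
  have he : 0 ≤ e := le_trans (Finset.sum_nonneg fun z _ => abs_nonneg _)
    (hout 0 ⟨le_refl _, by norm_num⟩)
  have hcont : ∀ (f : V → ℝ) (A : Finset V), Continuous fun s : ℝ => ∑ z ∈ A,
      D (fun y => f y + s) z := by
    intro f A
    refine continuous_finset_sum _ fun x _ => ?_
    exact (hc x).comp (continuous_pi fun x => continuous_const.add continuous_id)
  have hU : ∀ f : V → ℝ, U (fun x => f x + c) - U f
      = ∫ s in (0 : ℝ)..c, ∑ z, D (fun y => f y + s) z := by
    intro f
    have := intervalIntegral.integral_eq_sub_of_hasDerivAt (a := (0 : ℝ)) (b := c)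
      (fun s _ => hD f s) ((hcont f univ).intervalIntegrable _ _)
    rw [this]
    simp
  have hsplit : ∀ f : V → ℝ, ∫ s in (0 : ℝ)..c, ∑ z, D (fun y => f y + s) z
      = (∫ s in (0 : ℝ)..c, ∑ z ∈ univ.filter (fun q => rp q = q), D (fun y => f y + s) z)
        + ∫ s in (0 : ℝ)..c, ∑ z ∈ univ.filter (fun q => ¬ rp q = q), D (fun y => f y + s) z := by
    intro f
    rw [← intervalIntegral.integral_add ((hcont f _).intervalIntegrable _ _)
      ((hcont f _).intervalIntegrable _ _)]
    apply intervalIntegral.integral_congr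
    intro s _
    exact (Finset.sum_filter_add_sum_filter_not _ _ _).symm
  have hdiff : ∀ (f g : V → ℝ) (A : Finset V),
      (∀ s ∈ Set.Icc (0 : ℝ) 1, ∑ z ∈ A, |D (fun y => f y + s) z - D (fun y => g y + s) z| ≤ e) →
      |(∫ s in (0 : ℝ)..c, ∑ z ∈ A, D (fun y => f y + s) z)
        - ∫ s in (0 : ℝ)..c, ∑ z ∈ A, D (fun y => g y + s) z| ≤ e := by
    intro f g A hA
    rw [← intervalIntegral.integral_sub ((hcont f _).intervalIntegrable _ _)
      ((hcont g _).intervalIntegrable _ _)]
    have := intervalIntegral.norm_integral_le_of_norm_le_const (a := (0 : ℝ)) (b := c) (C := e)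
      (f := fun s => ∑ z ∈ A, D (fun y => f y + s) z - ∑ z ∈ A, D (fun y => g y + s) z) ?_
    · rw [Real.norm_eq_abs, sub_zero, abs_of_nonneg hc0] at this
      refine this.trans ?_
      nlinarith
    · intro s hs
      rw [Set.uIoc_of_le hc0] at hs
      rw [Real.norm_eq_abs, ← Finset.sum_sub_distrib]
      refine (Finset.abs_sum_le_sum_abs _ _).trans ?_
      exact hA s ⟨hs.1.le, hs.2.trans hc1⟩
  have k0 := hdiff f₀ (fun y => f₀ (rp y)) _ hin0
  have k1 := hdiff f₁ (fun y => f₁ (rp y)) _ hin1
  have k2 := hdiff f₁ f₀ _ hout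
  have c0 := cell_int h hc hD htr hosc f₀ c
  have c1 := cell_int h hc hD htr hosc f₁ c
  rw [hU f₁, hU f₀, hsplit f₁, hsplit f₀]
  rw [abs_le] at k0 k1 k2 c0 c1 ⊢
  constructor <;> linarith [k0.1, k0.2, k1.1, k1.2, k2.1, k2.2, c0.1, c0.2, c1.1, c1.2]

end main

section loc

variable {V : Type*} [Fintype V]

/-- locality of the gradient from decay of the Hessian -/
theorem loc_of_hess {D : (V → ℝ) → V → ℝ} {H : (V → ℝ) → V → V → ℝ} {F : Set (V → ℝ)}
    (hconv : ∀ g ∈ F, ∀ g' ∈ F, ∀ t ∈ Set.Icc (0 : ℝ) 1, (fun x => g x + t * (g' x - g x)) ∈ F)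
    (hH : ∀ (g u : V → ℝ) (t : ℝ) (z : V), HasDerivAt (fun t : ℝ => D (fun x => g x + t * u x) z)
      (∑ y, H (fun x => g x + t * u x) z y * u y) t)
    (far : V → V → Prop) [DecidableRel far] {e M : ℝ}
    (he : ∀ g ∈ F, ∑ z, ∑ y, (if far z y then |H g z y| else 0) ≤ e)
    {g g' : V → ℝ} (hg : g ∈ F) (hg' : g' ∈ F) (hM0 : 0 ≤ M) (hM : ∀ y, |g' y - g y| ≤ M)
    {A : Finset V} (hA : ∀ z ∈ A, ∀ y, g y ≠ g' y → far z y) (s : V → ℝ) (hs : ∀ z, |s z| ≤ 1) :
    |∑ z ∈ A, s z * (D g' z - D g z)| ≤ M * e := by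
  have key := (convex_Icc (0 : ℝ) 1).norm_image_sub_le_of_norm_hasDerivWithin_le
    (f := fun t => ∑ z ∈ A, s z * D (fun x => g x + t * (g' x - g x)) z)
    (f' := fun t => ∑ z ∈ A, s z * ∑ y, H (fun x => g x + t * (g' x - g x)) z y * (g' y - g y))
    (C := M * e) (fun t _ => ?_) (fun t ht => ?_) (x := 0) (y := 1) (by constructor <;> norm_num)
    (by constructor <;> norm_num)
  · have e1 : (fun x => g x + (1 : ℝ) * (g' x - g x)) = g' := by
      funext x
      ring
    have e0 : (fun x => g x + (0 : ℝ) * (g' x - g x)) = g := by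
      funext x
      ring
    rw [e1, e0, ← Finset.sum_sub_distrib] at key
    have e3 : ∑ z ∈ A, s z * (D g' z - D g z) = ∑ z ∈ A, (s z * D g' z - s z * D g z) :=
      Finset.sum_congr rfl fun z _ => by ring
    rw [e3]
    simpa using key
  · apply HasDerivAt.hasDerivWithinAt
    apply HasDerivAt.fun_sum
    intro z _
    exact (hH g (fun x => g' x - g x) t z).const_mul _
  · rw [Real.norm_eq_abs]
    refine (Finset.abs_sum_le_sum_abs _ _).trans ?_
    have h1 := he _ (hconv g hg g' hg' t ht)
    have h2 : ∀ z ∈ A, |s z * ∑ y, H (fun x => g x + t * (g' x - g x)) z y * (g' y - g y)|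
        ≤ ∑ y, M * (if far z y then |H (fun x => g x + t * (g' x - g x)) z y| else 0) := by
      intro z hz
      rw [abs_mul]
      have h3 : |s z| * |∑ y, H (fun x => g x + t * (g' x - g x)) z y * (g' y - g y)|
          ≤ 1 * |∑ y, H (fun x => g x + t * (g' x - g x)) z y * (g' y - g y)| :=
        mul_le_mul_of_nonneg_right (hs z) (abs_nonneg _)
      rw [one_mul] at h3
      refine h3.trans ((Finset.abs_sum_le_sum_abs _ _).trans (Finset.sum_le_sum fun y _ => ?_))
      rw [abs_mul]
      by_cases hy : g y = g' y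
      · rw [hy, sub_self, abs_zero, mul_zero]
        apply mul_nonneg hM0
        split_ifs
        · exact abs_nonneg _
        · exact le_refl _
      · rw [if_pos (hA z hz y hy), mul_comm]
        exact mul_le_mul_of_nonneg_right (hM y) (abs_nonneg _)
    refine (Finset.sum_le_sum h2).trans ?_
    have h4 : ∑ z ∈ A, ∑ y, M * (if far z y then |H (fun x => g x + t * (g' x - g x)) z y| else 0)
        ≤ ∑ z, ∑ y, M * (if far z y then |H (fun x => g x + t * (g' x - g x)) z y| else 0) := by
      apply Finset.sum_le_sum_of_subset_of_nonneg (Finset.subset_univ _)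
      intro z _ _
      apply Finset.sum_nonneg
      intro y _
      apply mul_nonneg hM0
      split_ifs
      · exact abs_nonneg _
      · exact le_refl _
    refine h4.trans ?_
    have h5 : ∑ z, ∑ y, M * (if far z y then |H (fun x => g x + t * (g' x - g x)) z y| else 0)
        = M * ∑ z, ∑ y, (if far z y then |H (fun x => g x + t * (g' x - g x)) z y| else 0) := by
      rw [Finset.mul_sum]
      exact Finset.sum_congr rfl fun z _ => by rw [Finset.mul_sum]
    rw [h5]
    exact mul_le_mul_of_nonneg_left h1 hM0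

end loc

end Vale.Agent.P159.TM.H215
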