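import Vale.Agent.P159.TM.H215.Cell
import Vale.Agent.P159.TM.H316.Clamp

/-!
# P159, row C3 : geometry of the cell, slowly varying backgrounds

`nm` = a translation invariant norm on the finite abelian group `V` (torus); `Lp nm L` =
backgrounds with `|f z - f y| ≤ L` for `nm (z - y) ≤ 1`.  `rp` = representative in the cell of
centre `x₀`, `rp z = z` when `nm (z - x₀) ≤ ρQ`.
-/

set_option linter.all false

open Finset

namespace Vale.Agent.P159.TM.H215

open Vale.Agent.P159.TM.H316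

section geo

variable {V : Type*} [AddCommGroup V]

/-- a translation invariant pseudonorm -/
structure IsNm (nm : V → ℝ) : Prop where
  nonneg : ∀ z, 0 ≤ nm z
  zero : nm 0 = 0
  neg : ∀ z, nm (-z) = nm z
  tri : ∀ z w, nm (z + w) ≤ nm z + nm w

theorem IsNm.sub_comm {nm : V → ℝ} (h : IsNm nm) (x y : V) : nm (x - y) = nm (y - x) := by
  rw [← h.neg, neg_sub]

theorem IsNm.tri3 {nm : V → ℝ} (h : IsNm nm) (x y z : V) :
    nm (x - z) ≤ nm (x - y) + nm (y - z) := by
  have := h.tri (x - y) (y - z)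
  rw [sub_add_sub_cancel] at this
  exact this

/-- slowly varying backgrounds -/
def Lp (nm : V → ℝ) (L : ℝ) : Set (V → ℝ) := {f | ∀ z y, nm (z - y) ≤ 1 → |f z - f y| ≤ L}

theorem Lp_mono {nm : V → ℝ} {L L' : ℝ} (h : L ≤ L') {f : V → ℝ} (hf : f ∈ Lp nm L) :
    f ∈ Lp nm L' := fun z y hzy => (hf z y hzy).trans h

theorem Lp_add {nm : V → ℝ} {L L' : ℝ} {f g : V → ℝ} (hf : f ∈ Lp nm L) (hg : g ∈ Lp nm L') :
    (fun x => f x + g x) ∈ Lp nm (L + L') := by
  intro z y hzy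
  have e : f z + g z - (f y + g y) = (f z - f y) + (g z - g y) := by ring
  show |f z + g z - (f y + g y)| ≤ L + L'
  rw [e]
  exact (abs_add_le _ _).trans (add_le_add (hf z y hzy) (hg z y hzy))

theorem Lp_smul {nm : V → ℝ} {L t r : ℝ} {f : V → ℝ} (hf : f ∈ Lp nm L) (ht : |t| ≤ r)
    (hL : 0 ≤ L) : (fun x => t * f x) ∈ Lp nm (r * L) := by
  intro z y hzy
  have e : t * f z - t * f y = t * (f z - f y) := by ring
  show |t * f z - t * f y| ≤ r * L
  rw [e, abs_mul]
  exact mul_le_mul ht (hf z y hzy) (abs_nonneg _) ((abs_nonneg _).trans ht)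

theorem Lp_const {nm : V → ℝ} {L : ℝ} {f : V → ℝ} (hf : f ∈ Lp nm L) (c : ℝ) :
    (fun x => f x + c) ∈ Lp nm L := by
  intro z y hzy
  show |f z + c - (f y + c)| ≤ L
  have e : f z + c - (f y + c) = f z - f y := by ring
  rw [e]
  exact hf z y hzy

theorem Lp_conv {nm : V → ℝ} {L : ℝ} : ∀ g ∈ Lp nm L, ∀ g' ∈ Lp nm L, ∀ t ∈ Set.Icc (0 : ℝ) 1,
    (fun x => g x + t * (g' x - g x)) ∈ Lp nm L := by
  intro g hg g' hg' t ht z y hzy
  show |g z + t * (g' z - g z) - (g y + t * (g' y - g y))| ≤ L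
  have e : g z + t * (g' z - g z) - (g y + t * (g' y - g y))
      = (1 - t) * (g z - g y) + t * (g' z - g' y) := by ring
  rw [e]
  refine (abs_add_le _ _).trans ?_
  rw [abs_mul, abs_mul, abs_of_nonneg ht.1, abs_of_nonneg (by linarith [ht.2] : 0 ≤ 1 - t)]
  have h1 := mul_le_mul_of_nonneg_left (hg z y hzy) (by linarith [ht.2] : 0 ≤ 1 - t)
  have h2 := mul_le_mul_of_nonneg_left (hg' z y hzy) ht.1
  linarith

/-- periodic repetition stays slowly varying -/
theorem lip_rp {nm : V → ℝ} (hn : IsNm nm) {T : AddSubgroup V} {rp : V → V} (hc : IsCell T rp)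
    {x0 : V} {rQ rB L c0 : ℝ} (hL : 0 ≤ L) (hin : ∀ z, nm (z - x0) ≤ rQ → rp z = z)
    (hr : rB + 1 ≤ rQ) {f : V → ℝ} (hf : f ∈ Lp nm L) (hf0 : ∀ z, rB < nm (z - x0) → f z = c0) :
    (fun z => f (rp z)) ∈ Lp nm L := by
  have half : ∀ z y, nm (z - y) ≤ 1 → nm (rp z - x0) ≤ rB → |f (rp z) - f (rp y)| ≤ L := by
    intro z y hzy hz
    have e1 : rp (y - (z - rp z)) = rp y := by
      rw [sub_eq_add_neg]
      exact hc.per y _ (T.neg_mem (hc.mem z))
    have e2 : nm (rp z - (y - (z - rp z))) ≤ 1 := by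
      have : rp z - (y - (z - rp z)) = z - y := by abel
      rw [this]
      exact hzy
    have e3 : nm (y - (z - rp z) - x0) ≤ rQ := by
      have := hn.tri3 (y - (z - rp z)) (rp z) x0
      rw [hn.sub_comm (y - (z - rp z)) (rp z)] at this
      linarith
    have e4 := hin _ e3
    rw [e1] at e4
    rw [e4]
    exact hf _ _ e2
  intro z y hzy
  show |f (rp z) - f (rp y)| ≤ L
  by_cases h1 : nm (rp z - x0) ≤ rB
  · exact half z y hzy h1
  · by_cases h2 : nm (rp y - x0) ≤ rB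
    · rw [abs_sub_comm]
      exact half y z (by rw [hn.sub_comm]; exact hzy) h2
    · rw [hf0 _ (not_le.1 h1), hf0 _ (not_le.1 h2), sub_self, abs_zero]
      exact hL

theorem far1 {nm : V → ℝ} (hn : IsNm nm) {rp : V → V} {x0 : V} {rQ rB R : ℝ}
    (hin : ∀ z, nm (z - x0) ≤ rQ → rp z = z) (hr : rB + R ≤ rQ) {z y : V} (hz : ¬ rp z = z)
    (hy : nm (y - x0) ≤ rB) : R < nm (z - y) := by
  have h1 : rQ < nm (z - x0) := by
    by_contra h
    exact hz (hin z (not_lt.1 h))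
  have := hn.tri3 z y x0
  linarith

theorem far2 {nm : V → ℝ} (hn : IsNm nm) {T : AddSubgroup V} {rp : V → V} (hc : IsCell T rp)
    {x0 : V} {rQ rB R c0 : ℝ} (hin : ∀ z, nm (z - x0) ≤ rQ → rp z = z) (hr : rB + R ≤ rQ)
    (hR : 0 ≤ R) {f : V → ℝ} (hf0 : ∀ z, rB < nm (z - x0) → f z = c0) {z y : V}
    (hz : rp z = z) (hy : f y ≠ f (rp y)) : R < nm (z - y) := by
  have h1 : ¬ rp y = y := by
    intro h
    rw [h] at hy
    exact hy rfl
  have h2 : nm (rp y - x0) ≤ rB := by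
    by_contra h
    have e1 := hf0 _ (not_le.1 h)
    have h3 : nm (y - x0) ≤ rB := by
      by_contra h4
      exact hy (by rw [e1, hf0 _ (not_le.1 h4)])
    exact h1 (hin y (by linarith))
  have h5 : rp (z - (y - rp y)) = z := by
    rw [sub_eq_add_neg, hc.per z _ (T.neg_mem (hc.mem y))]
    exact hz
  have h6 : ¬ rp (z - (y - rp y)) = z - (y - rp y) := by
    rw [h5]
    intro h
    apply h1
    have : y - rp y = 0 := by
      have h7 : z - (z - (y - rp y)) = 0 := by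
        rw [← h]
        abel
      rwa [sub_sub_cancel] at h7
    exact (sub_eq_zero.1 this).symm
  have := far1 hn hin hr h6 h2
  have e : z - (y - rp y) - rp y = z - y := by abel
  rwa [e] at this

end geo

section loc

variable {V : Type*} [Fintype V]

theorem loc_abs {D : (V → ℝ) → V → ℝ} {H : (V → ℝ) → V → V → ℝ} {F : Set (V → ℝ)}
    (hconv : ∀ g ∈ F, ∀ g' ∈ F, ∀ t ∈ Set.Icc (0 : ℝ) 1, (fun x => g x + t * (g' x - g x)) ∈ F)
    (hH : ∀ (g u : V → ℝ) (t : ℝ) (z : V), HasDerivAt (fun t : ℝ => D (fun x => g x + t * u x) z)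
      (∑ y, H (fun x => g x + t * u x) z y * u y) t)
    (far : V → V → Prop) [DecidableRel far] {e M : ℝ}
    (he : ∀ g ∈ F, ∑ z, ∑ y, (if far z y then |H g z y| else 0) ≤ e)
    {g g' : V → ℝ} (hg : g ∈ F) (hg' : g' ∈ F) (hM0 : 0 ≤ M) (hM : ∀ y, |g' y - g y| ≤ M)
    {A : Finset V} (hA : ∀ z ∈ A, ∀ y, g y ≠ g' y → far z y) :
    ∑ z ∈ A, |D g' z - D g z| ≤ M * e := by
  have := loc_of_hess hconv hH far he hg hg' hM0 hM hA
    (fun z => if 0 ≤ D g' z - D g z then 1 else -1) (fun z => by split_ifs <;> simp)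
  have e1 : ∑ z ∈ A, (if 0 ≤ D g' z - D g z then (1:ℝ) else -1) * (D g' z - D g z)
      = ∑ z ∈ A, |D g' z - D g z| := by
    refine Finset.sum_congr rfl fun z _ => ?_
    split_ifs with h
    · rw [one_mul, abs_of_nonneg h]
    · rw [abs_of_neg (not_le.1 h)]
      ring
  rw [e1] at this
  exact (le_abs_self _).trans this

end loc

section size

variable {V : Type*} [AddCommGroup V] [Fintype V] [DecidableEq V]

/-- **C3, real-axis bound** : cost of a constant at a localised slowly varying background -/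
theorem local_cost {nm : V → ℝ} (hn : IsNm nm) {T : AddSubgroup V} [DecidablePred (· ∈ T)]
    {rp : V → V} (hcell : IsCell T rp)
    {U : (V → ℝ) → ℝ} {D : (V → ℝ) → V → ℝ} {H : (V → ℝ) → V → V → ℝ}
    (hc : ∀ x, Continuous fun f => D f x)
    (hD : ∀ (f : V → ℝ) (c : ℝ),
      HasDerivAt (fun c => U (fun x => f x + c)) (∑ x, D (fun y => f y + c) x) c)
    (hH : ∀ (g u : V → ℝ) (t : ℝ) (z : V), HasDerivAt (fun t : ℝ => D (fun x => g x + t * u x) z)
      (∑ y, H (fun x => g x + t * u x) z y * u y) t)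
    (htr : ∀ f a x, D (fun z => f (z + a)) x = D f (x + a))
    {w0 : ℝ} (hosc : ∀ (f : V → ℝ) (c : ℝ), |U (fun x => f x + c) - U f| ≤ w0)
    {L R e : ℝ} (hL : 0 ≤ L) (hR : 0 ≤ R)
    (he : ∀ g ∈ Lp nm L, ∑ z, ∑ y, (if R < nm (z - y) then |H g z y| else 0) ≤ e)
    {x0 : V} {rQ rB : ℝ} (hin : ∀ z, nm (z - x0) ≤ rQ → rp z = z) (hr1 : rB + 1 ≤ rQ)
    (hr : rB + R ≤ rQ) {c0 M : ℝ} (hM0 : 0 ≤ M) {f₀ f₁ : V → ℝ}
    (h0L : f₀ ∈ Lp nm L) (h1L : f₁ ∈ Lp nm L)
    (h00 : ∀ z, rB < nm (z - x0) → f₀ z = c0) (h10 : ∀ z, rB < nm (z - x0) → f₁ z = c0)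
    (hM : ∀ z, |f₁ z - f₀ z| ≤ M) (h0M : ∀ z y, |f₀ z - f₀ y| ≤ M)
    (h1M : ∀ z y, |f₁ z - f₁ y| ≤ M) {c : ℝ} (hc0 : 0 ≤ c) (hc1 : c ≤ 1) :
    |(U (fun x => f₁ x + c) - U f₁) - (U (fun x => f₀ x + c) - U f₀)|
      ≤ 3 * (M * e) + 2 * (w0 / Fintype.card T) := by
  classical
  refine shift_cost hcell hc hD htr hosc ?_ ?_ ?_ hc0 hc1
  · intro s _
    refine loc_abs Lp_conv hH (fun z y => R < nm (z - y)) he (Lp_const h0L s) (Lp_const h1L s)
      hM0 ?_ ?_
    · intro y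
      have e1 : f₁ y + s - (f₀ y + s) = f₁ y - f₀ y := by ring
      rw [e1]
      exact hM y
    · intro z hz y hy
      rw [Finset.mem_filter] at hz
      apply far1 hn hin hr hz.2
      by_contra h
      exact hy (by rw [h00 _ (not_le.1 h), h10 _ (not_le.1 h)])
  · intro s _
    refine loc_abs Lp_conv hH (fun z y => R < nm (z - y)) he
      (Lp_const (lip_rp hn hcell hL hin hr1 h0L h00) s) (Lp_const h0L s) hM0 ?_ ?_
    · intro y
      have e1 : f₀ y + s - (f₀ (rp y) + s) = f₀ y - f₀ (rp y) := by ring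
      rw [e1]
      exact h0M _ _
    · intro z hz y hy
      rw [Finset.mem_filter] at hz
      apply far2 hn hcell hin hr hR h00 hz.2
      intro h
      exact hy (by rw [h])
  · intro s _
    refine loc_abs Lp_conv hH (fun z y => R < nm (z - y)) he
      (Lp_const (lip_rp hn hcell hL hin hr1 h1L h10) s) (Lp_const h1L s) hM0 ?_ ?_
    · intro y
      have e1 : f₁ y + s - (f₁ (rp y) + s) = f₁ y - f₁ (rp y) := by ring
      rw [e1]
      exact h1M _ _
    · intro z hz y hy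
      rw [Finset.mem_filter] at hz
      apply far2 hn hcell hin hr hR h10 hz.2
      intro h
      exact hy (by rw [h])

/-- distance to the centre controls the variation -/
theorem Lp_dist {nm : V → ℝ} {L : ℝ} {f : V → ℝ} (hf : f ∈ Lp nm L)
    {x0 : V} (hpath : ∀ z, |f z - f x0| ≤ L * nm (z - x0)) (z : V) :
    |f z - f x0| ≤ L * nm (z - x0) := hpath z

end size

end Vale.Agent.P159.TM.H215
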