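import Vale.Agent.P159.TM.H215.Size
import Vale.Agent.P159.TM.H104.Mass

/-!
# P159, row C3 : the abstract letters for the massive integer heights

`w` any bounded weight `≥ 0` on `V → ℤ`, masses `m x > 0`, real background `f`.
`Dg w m f x = m x (f x - E_f h x)` is the gradient of `H104.U`, `Hs` its Hessian.
-/

set_option linter.all false

open Finset

namespace Vale.Agent.P159.TM.H215

open Vale.Agent.P159.TM

variable {V : Type*} [Fintype V]

/-- gradient of `U` -/
noncomputable def Dg (w : (V → ℤ) → ℝ) (m : V → ℝ) (f : V → ℝ) (x : V) : ℝ :=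
  m x * f x - m x * H870.Ex w m f (fun h => (h x : ℝ))

/-- Hessian of `U` -/
noncomputable def Hs [DecidableEq V] (w : (V → ℤ) → ℝ) (m : V → ℝ) (f : V → ℝ) (x y : V) : ℝ :=
  (if x = y then m x else 0)
    - m x * m y * H104.Cf w m f (fun h => (h x : ℝ)) (fun h => (h y : ℝ))

theorem gr_site (x : V) : H104.Gr (fun h : V → ℤ => (h x : ℝ)) := by
  classical
  have h1 := H104.Gr.li (V := V) (Pi.single x 1)
  have e : (H104.li (Pi.single x 1 : V → ℝ)) = (fun h : V → ℤ => (h x : ℝ)) := by
    funext h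
    unfold H104.li
    rw [Finset.sum_eq_single x]
    · simp
    · intro y _ hy
      rw [Pi.single_eq_of_ne hy, zero_mul]
    · intro hx
      exact absurd (Finset.mem_univ x) hx
  rwa [e] at h1

theorem gr_sum {ι : Type*} (s : Finset ι) (F : ι → (V → ℤ) → ℝ) (hF : ∀ i, H104.Gr (F i)) :
    H104.Gr (fun h => ∑ i ∈ s, F i h) := by
  classical
  induction s using Finset.induction_on with
  | empty =>
    simp only [Finset.sum_empty]
    exact H104.Gr.const 0
  | insert i s hi ih =>
    simp only [Finset.sum_insert hi]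
    exact (hF i).add ih

section

variable {w : (V → ℤ) → ℝ} {m : V → ℝ} {Wb : ℝ}
variable (hm : ∀ x, 0 < m x) (hw0 : ∀ h, 0 ≤ w h) (hwb : ∀ h, w h ≤ Wb) (hp : ∃ h, 0 < w h)

include hm hw0 hwb hp

theorem ex_sum {ι : Type*} (s : Finset ι) (c : ι → ℝ) (F : ι → (V → ℤ) → ℝ)
    (hF : ∀ i, H104.Gr (F i)) (f : V → ℝ) :
    H870.Ex w m f (fun h => ∑ i ∈ s, c i * F i h) = ∑ i ∈ s, c i * H870.Ex w m f (F i) := by
  classical
  have hμ := H104.em_bw hm hw0 hwb hp
  simp only [H104.Ex_eq]
  induction s using Finset.induction_on with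
  | empty =>
    simp only [Finset.sum_empty]
    exact H104.Ex_const hμ 0 _
  | insert i s hi ih =>
    simp only [Finset.sum_insert hi]
    rw [H104.Ex_add hμ ((hF i).cmul (c i)) (gr_sum s _ (fun j => (hF j).cmul (c j))), ih,
      H104.Ex_cmul]

theorem ex_lin (f χ : V → ℝ) :
    H870.Ex w m f (H870.lin m χ) = ∑ x, χ x * (m x * H870.Ex w m f (fun h => (h x : ℝ))) := by
  have h1 := ex_sum hm hw0 hwb hp univ (fun x => m x * χ x) (fun x h => (h x : ℝ)) gr_site f
  have e : H870.lin m χ = fun h : V → ℤ => ∑ x, m x * χ x * (h x : ℝ) := rfl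
  rw [e, h1]
  refine Finset.sum_congr rfl fun x _ => ?_
  ring

theorem sum_Dg (f χ : V → ℝ) : ∑ x, χ x * Dg w m f x = H104.dU w m f χ := by
  unfold H104.dU
  rw [ex_lin hm hw0 hwb hp, ← Finset.sum_sub_distrib]
  refine Finset.sum_congr rfl fun x _ => ?_
  unfold Dg
  ring

theorem hasDerivAt_U_const (f : V → ℝ) (c : ℝ) :
    HasDerivAt (fun c : ℝ => H104.U w m (fun x => f x + c))
      (∑ x, Dg w m (fun y => f y + c) x) c := by
  have h1 := H104.hasDerivAt_U hm hw0 hwb hp f (fun _ => 1) c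
  have e : ∀ s : ℝ, f + s • (fun _ : V => (1 : ℝ)) = fun x => f x + s := by
    intro s
    funext x
    simp
  simp only [e] at h1
  rw [← sum_Dg hm hw0 hwb hp] at h1
  simpa using h1

theorem cf_lin (f χ : V → ℝ) (z : V) :
    H104.Cf w m f (fun h => (h z : ℝ)) (H870.lin m χ)
      = ∑ y, m y * χ y * H104.Cf w m f (fun h => (h z : ℝ)) (fun h => (h y : ℝ)) := by
  unfold H104.Cf
  rw [ex_lin hm hw0 hwb hp]
  have h1 := ex_sum hm hw0 hwb hp univ (fun y => m y * χ y) (fun y h => (h z : ℝ) * (h y : ℝ))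
    (fun y => (gr_site z).mul (gr_site y)) f
  have e : (fun h : V → ℤ => (h z : ℝ) * H870.lin m χ h)
      = fun h : V → ℤ => ∑ y, m y * χ y * ((h z : ℝ) * (h y : ℝ)) := by
    funext h
    unfold H870.lin
    rw [Finset.mul_sum]
    refine Finset.sum_congr rfl fun y _ => ?_
    ring
  rw [e, h1, Finset.mul_sum, ← Finset.sum_sub_distrib]
  refine Finset.sum_congr rfl fun y _ => ?_
  ring

theorem hasDerivAt_Dg [DecidableEq V] (g u : V → ℝ) (t : ℝ) (z : V) :
    HasDerivAt (fun t : ℝ => Dg w m (fun x => g x + t * u x) z)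
      (∑ y, Hs w m (fun x => g x + t * u x) z y * u y) t := by
  have h1 := H104.hasDerivAt_E hm hw0 hwb hp (gr_site z) g u t
  have e : ∀ s : ℝ, g + s • u = fun x => g x + s * u x := by
    intro s
    funext x
    simp
  simp only [e] at h1
  rw [cf_lin hm hw0 hwb hp] at h1
  have h2 : HasDerivAt (fun s : ℝ => m z * (g z + s * u z)) (m z * u z) t := by
    have h3 : HasDerivAt (fun s : ℝ => g z + s * u z) (u z) t := by
      simpa using ((hasDerivAt_id t).mul_const (u z)).const_add (g z)
    exact h3.const_mul (m z)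
  have h4 := h2.sub (h1.const_mul (m z))
  refine h4.congr_deriv ?_
  unfold Hs
  have e2 : ∑ y, ((if z = y then m z else 0) - m z * m y *
      H104.Cf w m (fun x => g x + t * u x) (fun h => (h z : ℝ)) (fun h => (h y : ℝ))) * u y
      = ∑ y, (if z = y then m z * u y else 0) - ∑ y, m z * (m y * u y *
        H104.Cf w m (fun x => g x + t * u x) (fun h => (h z : ℝ)) (fun h => (h y : ℝ))) := by
    rw [← Finset.sum_sub_distrib]
    refine Finset.sum_congr rfl fun y _ => ?_
    split_ifs <;> ring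
  rw [e2, Finset.sum_ite_eq, if_pos (Finset.mem_univ z), ← Finset.mul_sum]

theorem continuous_Dg (x : V) : Continuous fun f : V → ℝ => Dg w m f x := by
  unfold Dg
  exact (continuous_const.mul (continuous_apply x)).sub
    (continuous_const.mul (H104.continuous_E hm hw0 hwb hp (gr_site x)))

/-- **the analytic step in the abstract letters** (870's `c3_core`) -/
theorem an_model {χ : V → ℝ} {r ρ δ : ℝ} (hρ : 0 < ρ) (hr : 2 * ρ ≤ r) (hδ : 0 < δ)
    (hδ1 : δ ≤ 1 / 2) (hvar : ∀ g : V → ℝ, ρ ^ 2 * H870.Vr w m g χ ≤ 1)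
    (f : V → ℝ) (c : ℝ)
    (h : ∀ t, |t| ≤ r → |(H104.U w m (fun x => f x + t * χ x + c)
        - H104.U w m (fun x => f x + t * χ x))
        - (H104.U w m (fun x => f x + c) - H104.U w m f)| ≤ δ) :
    |∑ x, χ x * (Dg w m (fun y => f y + c) x - Dg w m f x)|
      ≤ Real.exp 2 * (1 + Real.log (5 / (2 * δ))) * (2 * δ) / ρ := by
  classical
  have hZ : ∀ g : V → ℝ, 0 < H870.Zr w m g := H104.Zr_pos hm hw0 hwb hp
  have key := H870.c3_core hm hw0 hwb hZ (f := f) (χ := χ) (c := c) (r := r) (ρ := ρ)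
    (δ := 2 * δ) hρ hr (by linarith) (by linarith) (fun t _ => hvar _) ?_
  · have e1 : ∑ x, χ x * (Dg w m (fun y => f y + c) x - Dg w m f x)
        = -(H870.Ex w m (fun x => f x + c) (H870.lin m χ) - H870.Ex w m f (H870.lin m χ)
          - c * ∑ x, m x * χ x) := by
      rw [ex_lin hm hw0 hwb hp, ex_lin hm hw0 hwb hp, Finset.mul_sum, ← Finset.sum_sub_distrib,
        ← Finset.sum_sub_distrib, ← Finset.sum_neg_distrib]
      refine Finset.sum_congr rfl fun x _ => ?_
      unfold Dg
      ring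
    rw [e1, abs_neg]
    exact key
  · intro t ht
    have h1 := h t ht
    set a := H870.Zr w m (fun x => f x + t * χ x + c) with ha
    set b := H870.Zr w m (fun x => f x + t * χ x) with hb
    set p := H870.Zr w m (fun x => f x + c) with hpp
    set q := H870.Zr w m f with hq
    set z := H870.Zr w m 0 with hz
    have ha0 : 0 < a := hZ _
    have hb0 : 0 < b := hZ _
    have hp0 : 0 < p := hZ _
    have hq0 : 0 < q := hZ _
    have hz0 : 0 < z := hZ _
    have e2 : (fun x => f x + c + t * χ x) = (fun x => f x + t * χ x + c) := by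
      funext x
      ring
    rw [e2]
    have e3 : (H104.U w m (fun x => f x + t * χ x + c) - H104.U w m (fun x => f x + t * χ x))
        - (H104.U w m (fun x => f x + c) - H104.U w m f) = -Real.log (a * q / (b * p)) := by
      unfold H104.U
      rw [← ha, ← hb, ← hpp, ← hq, ← hz, Real.log_div ha0.ne' hz0.ne',
        Real.log_div hb0.ne' hz0.ne', Real.log_div hp0.ne' hz0.ne', Real.log_div hq0.ne' hz0.ne',
        Real.log_div (mul_pos ha0 hq0).ne' (mul_pos hb0 hp0).ne', Real.log_mul ha0.ne' hq0.ne',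
        Real.log_mul hb0.ne' hp0.ne']
      ring
    rw [e3, abs_neg] at h1
    have h2 : 0 < a * q / (b * p) := div_pos (mul_pos ha0 hq0) (mul_pos hb0 hp0)
    have h3 : a * q / (b * p) = Real.exp (Real.log (a * q / (b * p))) := (Real.exp_log h2).symm
    show |a * q / (b * p) - 1| ≤ 2 * δ
    rw [h3]
    have h4 := Real.abs_exp_sub_one_le (x := Real.log (a * q / (b * p))) (h1.trans (by linarith))
    linarith

end

end Vale.Agent.P159.TM.H215
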