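import Vale.Agent.P159.TM.H215.Geo
import Vale.Agent.P159.TM.H215.Charge

/-!
# P159, row C3 : size of the local charge functional

`c3_size` : for a slowly varying background `f`, `|∑ χ x (D (f + c) x - D f x)| ≤ A δ + 2 L diam e`
with `δ = 3 M e + 2 w0 / |T|`; `xb_size` : the same for `xb`; `c3_crude`, `xb_crude` : for EVERY
background, with `δ = 2 w0`.  `A` = the two-constants bound (hypothesis `hAN`, discharged by
`H870.c3_core`).
-/

set_option linter.all false

open Finset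

namespace Vale.Agent.P159.TM.H215

open Vale.Agent.P159.TM.H316

variable {V : Type*} [AddCommGroup V] [Fintype V] [DecidableEq V]

/-- **C3** : size, in the cell -/
theorem c3_size {nm : V → ℝ} (hn : IsNm nm) {T : AddSubgroup V} [DecidablePred (· ∈ T)]
    {rp : V → V} (hcell : IsCell T rp)
    {U : (V → ℝ) → ℝ} {D : (V → ℝ) → V → ℝ} {H : (V → ℝ) → V → V → ℝ}
    (hc : ∀ x, Continuous fun f => D f x)
    (hD : ∀ (f : V → ℝ) (c : ℝ),
      HasDerivAt (fun c => U (fun x => f x + c)) (∑ x, D (fun y => f y + c) x) c)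
    (hH : ∀ (g u : V → ℝ) (t : ℝ) (z : V), HasDerivAt (fun t : ℝ => D (fun x => g x + t * u x) z)
      (∑ y, H (fun x => g x + t * u x) z y * u y) t)
    (htr : ∀ f a x, D (fun z => f (z + a)) x = D f (x + a))
    {w0 : ℝ} (hosc : ∀ (f : V → ℝ) (c : ℝ), |U (fun x => f x + c) - U f| ≤ w0)
    {L R e : ℝ} (hL : 0 < L) (hR : 0 ≤ R)
    (he : ∀ g ∈ Lp nm L, ∑ z, ∑ y, (if R < nm (z - y) then |H g z y| else 0) ≤ e)
    {x0 : V} {rQ rB rX : ℝ} (hin : ∀ z, nm (z - x0) ≤ rQ → rp z = z) (hr1 : rB + 1 ≤ rQ)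
    (hr : rB + R ≤ rQ) (hrX : 0 ≤ rX) (hXB : 2 * (rX + R) ≤ rB)
    {diam : ℝ} (hdiam : ∀ z, nm z ≤ diam)
    {χ : V → ℝ} (hχ1 : ∀ z, |χ z| ≤ 1) (hχ0 : ∀ z, rX < nm (z - x0) → χ z = 0)
    {r : ℝ} (hr0 : 0 ≤ r) (hχL : ∀ t, |t| ≤ r → (fun x => t * χ x) ∈ Lp nm (L / 2))
    {A : ℝ → ℝ} {δ : ℝ} (hδ : 3 * ((L * rB + 2 * r) * e) + 2 * (w0 / Fintype.card T) ≤ δ)
    (hAN : ∀ (f : V → ℝ) (c : ℝ), 0 ≤ c → c ≤ 1 →
      (∀ t, |t| ≤ r → |(U (fun x => f x + t * χ x + c) - U (fun x => f x + t * χ x))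
        - (U (fun x => f x + c) - U f)| ≤ δ) →
      |∑ x, χ x * (D (fun y => f y + c) x - D f x)| ≤ A δ)
    {f : V → ℝ} (hf : f ∈ Lp nm (L / 2)) (hfd : ∀ z, |f z - f x0| ≤ L / 2 * nm (z - x0))
    {c : ℝ} (hc0 : 0 ≤ c) (hc1 : c ≤ 1) :
    |∑ x, χ x * (D (fun y => f y + c) x - D f x)| ≤ A δ + 2 * (L * diam * e) := by
  classical
  have hrB : 0 ≤ rB := by nlinarith
  have hL2 : 0 ≤ L / 2 := by linarith
  set m : ℝ := L / 2 * rB with hm
  have hm0 : 0 ≤ m := mul_nonneg hL2 hrB
  set g : V → ℝ := fun z => cl (L / 2) (fun z => nm (z - x0)) (f x0) f m z with hg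
  have hd1 : ∀ z z' : V, nm (z - z') ≤ 1 → |nm (z - x0) - nm (z' - x0)| ≤ 1 := by
    intro z z' h
    rw [abs_le]
    have h1 := hn.tri3 z z' x0
    have h2 := hn.tri3 z' z x0
    rw [hn.sub_comm z' z] at h2
    constructor <;> linarith
  have hgL : g ∈ Lp nm (L / 2) := by
    intro z z' hzz
    exact cl_slope hL2 m (hd1 z z' hzz) (hf z z' hzz)
  have hgc : ∀ z, rB < nm (z - x0) → g z = f x0 := by
    intro z hz
    apply cl_eq_const
    exact mul_le_mul_of_nonneg_left hz.le hL2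
  have hgf : ∀ z, nm (z - x0) ≤ rB / 2 → g z = f z := by
    intro z hz
    apply cl_eq_self (hfd z)
    rw [hm]
    nlinarith
  have hgm : ∀ z, |g z - f x0| ≤ m := by
    intro z
    exact abs_cl_sub_le' hL2 (fun z => hn.nonneg _) _ _ hm0 z
  -- the real-axis bound
  have hreal : ∀ t, |t| ≤ r → |(U (fun x => g x + t * χ x + c) - U (fun x => g x + t * χ x))
        - (U (fun x => g x + c) - U g)| ≤ δ := by
    intro t ht
    refine le_trans ?_ hδ
    have hLL : L / 2 + L / 2 = L := by ring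
    have htχ : ∀ z, |t * χ z| ≤ r := by
      intro z
      rw [abs_mul]
      have := mul_le_mul ht (hχ1 z) (abs_nonneg _) hr0
      linarith
    refine local_cost hn hcell hc hD hH htr hosc hL.le hR he hin hr1 hr (c0 := f x0) ?_
      (Lp_mono (by linarith) hgL) ?_ hgc ?_ ?_ ?_ ?_ hc0 hc1
    · positivity
    · have := Lp_add hgL (hχL t ht)
      rw [hLL] at this
      exact this
    · intro z hz
      show g z + t * χ z = f x0
      rw [hgc z hz, hχ0 z (by linarith), mul_zero, add_zero]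
    · intro z
      show |g z + t * χ z - g z| ≤ _
      rw [add_sub_cancel_left]
      have := htχ z
      nlinarith [mul_nonneg hL.le hrB]
    · intro z y
      have h1 := abs_le.1 (hgm z)
      have h2 := abs_le.1 (hgm y)
      rw [hm] at h1 h2
      rw [abs_le]
      constructor <;> linarith [h1.1, h1.2, h2.1, h2.2]
    · intro z y
      show |g z + t * χ z - (g y + t * χ y)| ≤ _
      have h1 := abs_le.1 (hgm z)
      have h2 := abs_le.1 (hgm y)
      have h3 := abs_le.1 (htχ z)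
      have h4 := abs_le.1 (htχ y)
      rw [hm] at h1 h2
      rw [abs_le]
      constructor <;> linarith [h1.1, h1.2, h2.1, h2.2, h3.1, h3.2, h4.1, h4.2]
  have key := hAN g c hc0 hc1 hreal
  -- passage from `g` to `f`
  have hdiam0 : 0 ≤ diam := (hn.nonneg 0).trans (hdiam 0)
  have pass : ∀ s : ℝ, |∑ x, χ x * (D (fun y => f y + s) x - D (fun y => g y + s) x)|
      ≤ L * diam * e := by
    intro s
    have hfL : f ∈ Lp nm L := Lp_mono (by linarith) hf
    have hgL' : g ∈ Lp nm L := Lp_mono (by linarith) hgL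
    have h1 := loc_of_hess Lp_conv hH (fun z y => R < nm (z - y)) he (Lp_const hgL' s)
      (Lp_const hfL s) (M := L * diam) (by positivity) ?_
      (A := univ.filter (fun z => nm (z - x0) ≤ rX)) ?_ χ hχ1
    · have e1 : ∑ z ∈ univ.filter (fun z => nm (z - x0) ≤ rX),
          χ z * (D (fun y => f y + s) z - D (fun y => g y + s) z)
          = ∑ x, χ x * (D (fun y => f y + s) x - D (fun y => g y + s) x) := by
        apply Finset.sum_subset (Finset.subset_univ _)
        intro z _ hz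
        rw [Finset.mem_filter, not_and] at hz
        rw [hχ0 z (not_le.1 (hz (Finset.mem_univ _))), zero_mul]
      rw [e1] at h1
      exact h1
    · intro y
      have e1 : f y + s - (g y + s) = (f y - f x0) - (g y - f x0) := by ring
      rw [e1]
      have h2 : |g y - f x0| ≤ |f y - f x0| := abs_cl_sub_le_f _ _ _ _ _
      have h3 := (hfd y).trans (mul_le_mul_of_nonneg_left (hdiam (y - x0)) hL2)
      have h4 := abs_le.1 h3
      have h5 := abs_le.1 (h2.trans h3)
      rw [abs_le]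
      constructor <;> linarith [h4.1, h4.2, h5.1, h5.2]
    · intro z hz y hy
      rw [Finset.mem_filter] at hz
      have h2 : rB / 2 < nm (y - x0) := by
        by_contra h
        exact hy (by rw [hgf y (not_lt.1 h)])
      have h3 := hn.tri3 y z x0
      rw [hn.sub_comm y z] at h3
      linarith [hz.2]
  have p1 := pass c
  have p0 := pass 0
  have e0 : (fun y => f y + 0) = f := by
    funext y
    ring
  have e0' : (fun y => g y + 0) = g := by
    funext y
    ring
  rw [e0, e0'] at p0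
  have e2 : ∑ x, χ x * (D (fun y => f y + c) x - D f x)
      = ∑ x, χ x * (D (fun y => g y + c) x - D g x)
        + ∑ x, χ x * (D (fun y => f y + c) x - D (fun y => g y + c) x)
        - ∑ x, χ x * (D f x - D g x) := by
    rw [← Finset.sum_add_distrib, ← Finset.sum_sub_distrib]
    refine Finset.sum_congr rfl fun x _ => ?_
    ring
  rw [e2]
  rw [abs_le] at key p1 p0 ⊢
  constructor <;> linarith [key.1, key.2, p1.1, p1.2, p0.1, p0.2]

/-- the crude bound, at EVERY background -/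
theorem c3_crude {U : (V → ℝ) → ℝ} {D : (V → ℝ) → V → ℝ} {w0 : ℝ}
    (hosc : ∀ (f : V → ℝ) (c : ℝ), |U (fun x => f x + c) - U f| ≤ w0)
    {χ : V → ℝ} {r : ℝ} {A : ℝ → ℝ}
    (hAN : ∀ (f : V → ℝ) (c : ℝ), 0 ≤ c → c ≤ 1 →
      (∀ t, |t| ≤ r → |(U (fun x => f x + t * χ x + c) - U (fun x => f x + t * χ x))
        - (U (fun x => f x + c) - U f)| ≤ 2 * w0) →
      |∑ x, χ x * (D (fun y => f y + c) x - D f x)| ≤ A (2 * w0))
    (f : V → ℝ) {c : ℝ} (hc0 : 0 ≤ c) (hc1 : c ≤ 1) :
    |∑ x, χ x * (D (fun y => f y + c) x - D f x)| ≤ A (2 * w0) := by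
  refine hAN f c hc0 hc1 ?_
  intro t _
  have h1 := abs_le.1 (hosc (fun x => f x + t * χ x) c)
  have h2 := abs_le.1 (hosc f c)
  rw [abs_le]
  constructor <;> linarith [h1.1, h1.2, h2.1, h2.2]

end Vale.Agent.P159.TM.H215
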