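import Vale.Agent.P159.TM.H215.C3
import Vale.Agent.P159.TM.H365.Phi
import Vale.Agent.P159.TM.H859.LogC

/-!
# P159, row C3 : the torus `ZMod N × ZMod N`, cells of side `l`, hats of side `ξ`

`isNm_tn` : 859's Euclidean norm is a norm; `r1`, `rp2`, `TT` : representative in the cell of side
`l` around `x₀` and the subgroup `(l ℤ)²`, `card_TT = M²` for `N = M l`; `Lp_tn_iff` ; the hats
`H365.phi ξ 0 u` : support, slope.
-/

set_option linter.all false

open Finset

namespace Vale.Agent.P159.TM.H215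

open Vale.Agent.P159.TM
open Vale.Agent.P159.TM.H859 (tn rep nz)
open Vale.Agent.P159.TM.H365 (qq rr pt node node2 cor d1)

section norm

variable {N : ℕ} [NeZero N]

theorem tn_zero : tn (0 : ZMod N × ZMod N) = 0 := by
  unfold tn rep nz
  simp

theorem isNm_tn : IsNm (tn : ZMod N × ZMod N → ℝ) where
  nonneg := H859.tn_nonneg
  zero := tn_zero
  neg := H859.tn_neg
  tri := H859.tn_add_le

theorem fst_le_tn (x : ZMod N × ZMod N) : |(x.1.valMinAbs : ℝ)| ≤ tn x :=
  H859.abs_fst_le_nz (rep x)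

theorem snd_le_tn (x : ZMod N × ZMod N) : |(x.2.valMinAbs : ℝ)| ≤ tn x := by
  unfold tn rep nz
  rw [← Real.sqrt_sq_eq_abs]
  apply Real.sqrt_le_sqrt
  have := sq_nonneg ((x.1.valMinAbs : ℤ) : ℝ)
  simp only
  linarith

theorem tn_le_sum (x : ZMod N × ZMod N) :
    tn x ≤ |(x.1.valMinAbs : ℝ)| + |(x.2.valMinAbs : ℝ)| := by
  unfold tn rep nz
  rw [Real.sqrt_le_left (by positivity)]
  have h1 := abs_nonneg ((x.1.valMinAbs : ℤ) : ℝ)
  have h2 := abs_nonneg ((x.2.valMinAbs : ℤ) : ℝ)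
  have h3 := sq_abs ((x.1.valMinAbs : ℤ) : ℝ)
  have h4 := sq_abs ((x.2.valMinAbs : ℤ) : ℝ)
  simp only
  nlinarith [mul_nonneg h1 h2]

theorem tn_le_N (x : ZMod N × ZMod N) : tn x ≤ N := by
  refine (tn_le_sum x).trans ?_
  have h : ∀ a : ZMod N, |(a.valMinAbs : ℝ)| ≤ (N : ℝ) / 2 := by
    intro a
    have h1 := ZMod.natAbs_valMinAbs_le a
    have h2 : ((a.valMinAbs.natAbs : ℕ) : ℝ) ≤ ((N / 2 : ℕ) : ℝ) := by exact_mod_cast h1
    have h3 : ((N / 2 : ℕ) : ℝ) ≤ (N : ℝ) / 2 := Nat.cast_div_le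
    rw [Nat.cast_natAbs, Int.cast_abs] at h2
    linarith
  have := h x.1
  have := h x.2
  linarith

/-- integer representatives bound the norm -/
theorem tn_le_of_int {x : ZMod N × ZMod N} {a b : ℤ} {c : ℝ} (h1 : ((a : ℤ) : ZMod N) = x.1)
    (h2 : ((b : ℤ) : ZMod N) = x.2) (ha : |(a : ℝ)| ≤ c) (hb : |(b : ℝ)| ≤ c) :
    tn x ≤ 2 * c := by
  refine (H859.tn_le_nz (z := (a, b)) h1 h2).trans ?_
  unfold nz
  have hc : 0 ≤ c := (abs_nonneg _).trans ha
  rw [Real.sqrt_le_left (by positivity)]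
  have h3 := sq_abs (a : ℝ)
  have h4 := sq_abs (b : ℝ)
  have h5 := mul_self_le_mul_self (abs_nonneg (a : ℝ)) ha
  have h6 := mul_self_le_mul_self (abs_nonneg (b : ℝ)) hb
  simp only
  nlinarith [sq_nonneg c]

theorem d1_le_tn (x y : ZMod N × ZMod N) : d1 x y ≤ 2 * tn (x - y) := by
  unfold d1
  have h1 := fst_le_tn (x - y)
  have h2 := snd_le_tn (x - y)
  rw [Prod.fst_sub] at h1
  rw [Prod.snd_sub] at h2
  linarith

theorem tn_e1 : tn ((1, 0) : ZMod N × ZMod N) ≤ 1 := by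
  refine (H859.tn_le_nz (z := (1, 0)) (by simp) (by simp)).trans ?_
  unfold nz
  norm_num

theorem tn_e2 : tn ((0, 1) : ZMod N × ZMod N) ≤ 1 := by
  refine (H859.tn_le_nz (z := (0, 1)) (by simp) (by simp)).trans ?_
  unfold nz
  norm_num

/-- nearest-neighbour slopes give the Euclidean Lipschitz constant `2 L` -/
theorem Lp_lip {L : ℝ} (hL : 0 ≤ L) {f : ZMod N × ZMod N → ℝ} (hf : f ∈ Lp tn L)
    (x y : ZMod N × ZMod N) : |f x - f y| ≤ 2 * L * tn (x - y) := by
  have h1 : ∀ x, |f (x + (1, 0)) - f x| ≤ L := by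
    intro x
    apply hf
    rw [add_sub_cancel_left]
    exact tn_e1
  have h2 : ∀ x, |f (x + (0, 1)) - f x| ≤ L := by
    intro x
    apply hf
    rw [add_sub_cancel_left]
    exact tn_e2
  refine (H365.lip_of_nn h1 h2 x y).trans ?_
  have := mul_le_mul_of_nonneg_left (d1_le_tn x y) hL
  linarith

theorem Lp_of_lip {L : ℝ} (hL : 0 ≤ L) {f : ZMod N × ZMod N → ℝ}
    (hf : ∀ x y, |f x - f y| ≤ L * tn (x - y)) : f ∈ Lp tn L := by
  intro z y hzy
  refine (hf z y).trans ?_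
  have := mul_le_mul_of_nonneg_left hzy hL
  linarith

theorem d1_le_one {x y : ZMod N × ZMod N} (h : tn (x - y) ≤ 1) : d1 x y ≤ 1 := by
  have h1 : tn (x - y) ^ 2 ≤ 1 := by
    have := H859.tn_nonneg (x - y)
    nlinarith
  unfold tn rep nz at h1
  rw [Real.sq_sqrt (by positivity)] at h1
  unfold d1
  simp only [Prod.fst_sub, Prod.snd_sub] at h1
  have h2 : (x.1 - y.1).valMinAbs ^ 2 + (x.2 - y.2).valMinAbs ^ 2 ≤ 1 := by exact_mod_cast h1
  have h3 : |(x.1 - y.1).valMinAbs| + |(x.2 - y.2).valMinAbs| ≤ 1 := by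
    set a := (x.1 - y.1).valMinAbs with ha
    set b := (x.2 - y.2).valMinAbs with hb
    have e1 := sq_abs a
    have e2 := sq_abs b
    have p1 := abs_nonneg a
    have p2 := abs_nonneg b
    by_contra hcon
    have h4 : 2 ≤ |a| + |b| := by omega
    rcases Nat.lt_or_ge 0 1 with _ | h5
    · by_cases hA : |a| ≤ 1
      · by_cases hB : |b| ≤ 1
        · have hA1 : |a| = 1 := by omega
          have hB1 : |b| = 1 := by omega
          rw [hA1] at e1
          rw [hB1] at e2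
          omega
        · have : 2 ≤ |b| := by omega
          nlinarith
      · have : 2 ≤ |a| := by omega
        nlinarith
    · omega
  exact_mod_cast h3

theorem Lp_of_nn {L : ℝ} (hL : 0 ≤ L) {f : ZMod N × ZMod N → ℝ}
    (h1 : ∀ x, |f (x + (1, 0)) - f x| ≤ L) (h2 : ∀ x, |f (x + (0, 1)) - f x| ≤ L) :
    f ∈ Lp tn L := by
  intro z y hzy
  refine (H365.lip_of_nn h1 h2 z y).trans ?_
  have := mul_le_mul_of_nonneg_left (d1_le_one hzy) hL
  linarith

end norm

section cell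

variable {N M l : ℕ} [NeZero N]

/-- reduction modulo `l` -/
noncomputable def red (l : ℕ) (x : ZMod N) : ZMod l := ((x.val : ℕ) : ZMod l)

theorem red_val (hl : 0 < l) (x : ZMod N) : (red l x).val = x.val % l := by
  haveI : NeZero l := ⟨hl.ne'⟩
  unfold red
  rw [ZMod.val_natCast]

theorem red_add (hN : N = M * l) (x y : ZMod N) : red l (x + y) = red l x + red l y := by
  have hd : l ∣ N := ⟨M, by rw [hN]; ring⟩
  have h : ∀ z : ZMod N, red l z = ZMod.castHom hd (ZMod l) z := by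
    intro z
    unfold red
    rw [ZMod.castHom_apply, ZMod.cast_eq_val]
  rw [h, h, h, map_add]

/-- centred representative modulo `l` -/
noncomputable def r1 (l : ℕ) (w : ZMod N) : ZMod N :=
  (((red l (w + ((l / 2 : ℕ) : ZMod N))).val : ℕ) : ZMod N) - ((l / 2 : ℕ) : ZMod N)

/-- the subgroup `l ℤ` -/
def T1 (N l : ℕ) : AddSubgroup (ZMod N) := AddSubgroup.zmultiples (l : ZMod N)

theorem red_mem (hN : N = M * l) (hl : 0 < l) {a : ZMod N} (ha : a ∈ T1 N l) : red l a = 0 := by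
  have hd : l ∣ N := ⟨M, by rw [hN]; ring⟩
  obtain ⟨k, hk⟩ := AddSubgroup.mem_zmultiples_iff.1 ha
  have h : red l a = ZMod.castHom hd (ZMod l) a := by
    unfold red
    rw [ZMod.castHom_apply, ZMod.cast_eq_val]
  rw [h, ← hk, map_zsmul, map_natCast, ZMod.natCast_self, smul_zero]

theorem r1_per (hN : N = M * l) (hl : 0 < l) (w a : ZMod N) (ha : a ∈ T1 N l) :
    r1 l (w + a) = r1 l w := by
  unfold r1
  have e : w + a + ((l / 2 : ℕ) : ZMod N) = w + ((l / 2 : ℕ) : ZMod N) + a := by ring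
  rw [e, red_add hN, red_mem hN hl ha, add_zero]

theorem r1_mem (hN : N = M * l) (hl : 0 < l) (w : ZMod N) : w - r1 l w ∈ T1 N l := by
  unfold r1
  set v := w + ((l / 2 : ℕ) : ZMod N) with hv
  have e : w - ((((red l v).val : ℕ) : ZMod N) - ((l / 2 : ℕ) : ZMod N))
      = v - (((red l v).val : ℕ) : ZMod N) := by
    rw [hv]
    ring
  rw [e, red_val hl]
  apply AddSubgroup.mem_zmultiples_iff.2
  refine ⟨((v.val / l : ℕ) : ℤ), ?_⟩
  have h1 : v = ((v.val : ℕ) : ZMod N) := (ZMod.natCast_zmod_val v).symm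
  have h2 : v.val = l * (v.val / l) + v.val % l := (Nat.div_add_mod _ _).symm
  have h3 : v - ((v.val % l : ℕ) : ZMod N) = ((l * (v.val / l) : ℕ) : ZMod N) := by
    have h4 : (v : ZMod N) = ((l * (v.val / l) + v.val % l : ℕ) : ZMod N) := by
      rw [← h2]
      exact h1
    rw [sub_eq_iff_eq_add]
    rw [← Nat.cast_add]
    exact h4
  rw [h3, zsmul_eq_mul, Int.cast_natCast, Nat.cast_mul, mul_comm]

theorem r1_self (hN : N = M * l) (hM : 0 < M) (hl : 0 < l) {w : ZMod N}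
    (hw : |(w.valMinAbs : ℝ)| < (l : ℝ) / 2) : r1 l w = w := by
  set a := w.valMinAbs with ha
  have h1 : -(l : ℤ) < 2 * a ∧ 2 * a < l := by
    have := abs_lt.1 hw
    constructor
    · have h2 : (-(l : ℝ)) < 2 * (a : ℝ) := by linarith [this.1]
      exact_mod_cast h2
    · have h2 : 2 * (a : ℝ) < l := by linarith [this.2]
      exact_mod_cast h2
  have hlN : l ≤ N := by
    rw [hN]
    exact Nat.le_mul_of_pos_left l hM
  have hdiv : 2 * (l / 2) ≤ l ∧ l ≤ 2 * (l / 2) + 1 := by omega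
  have h2 : 0 ≤ a + (l / 2 : ℕ) ∧ a + (l / 2 : ℕ) < l := by
    constructor
    · omega
    · omega
  obtain ⟨k, hk⟩ := Int.eq_ofNat_of_zero_le h2.1
  have hk' : (k : ℤ) < l := by
    rw [← hk]
    exact h2.2
  have hkl : k < l := by exact_mod_cast hk'
  have e1 : w + ((l / 2 : ℕ) : ZMod N) = ((k : ℕ) : ZMod N) := by
    have h3 : ((a : ℤ) : ZMod N) = w := by
      rw [ha]
      exact ZMod.coe_valMinAbs w
    have h4 : (((a + (l / 2 : ℕ) : ℤ)) : ZMod N) = ((k : ℤ) : ZMod N) := by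
      rw [hk]
    rw [Int.cast_add, Int.cast_natCast, Int.cast_natCast, h3] at h4
    exact h4
  unfold r1
  rw [red_val hl, e1, ZMod.val_natCast, Nat.mod_eq_of_lt (hkl.trans_le hlN),
    Nat.mod_eq_of_lt hkl, ← e1]
  ring

theorem card_T1 (hN : N = M * l) (hl : 0 < l) : Nat.card (T1 N l) = M := by
  unfold T1
  rw [Nat.card_zmultiples, ZMod.addOrderOf_coe l (NeZero.ne N)]
  have : N.gcd l = l := by
    rw [hN]
    exact Nat.gcd_eq_right ⟨M, by ring⟩
  rw [this, hN]
  exact Nat.mul_div_cancel _ hl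

/-- the subgroup `(l ℤ)²` of the torus -/
def TT (N l : ℕ) : AddSubgroup (ZMod N × ZMod N) := (T1 N l).prod (T1 N l)

noncomputable instance (N l : ℕ) : DecidablePred (· ∈ TT N l) := fun _ => Classical.dec _

theorem card_TT (hN : N = M * l) (hl : 0 < l) : Fintype.card (TT N l) = M ^ 2 := by
  rw [← Nat.card_eq_fintype_card]
  have h1 : Nat.card (TT N l) = Nat.card ((T1 N l) × (T1 N l)) :=
    Nat.card_congr ((T1 N l).prodEquiv (T1 N l)).toEquiv
  rw [h1, Nat.card_prod, card_T1 hN hl]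
  ring

/-- the representative in the cell of side `l` around `x₀` -/
noncomputable def rp2 (l : ℕ) (x0 z : ZMod N × ZMod N) : ZMod N × ZMod N :=
  (x0.1 + r1 l (z.1 - x0.1), x0.2 + r1 l (z.2 - x0.2))

theorem isCell_rp2 (hN : N = M * l) (hl : 0 < l) (x0 : ZMod N × ZMod N) :
    IsCell (TT N l) (rp2 l x0) where
  mem z := by
    refine AddSubgroup.mem_prod.2 ⟨?_, ?_⟩
    · have := r1_mem hN hl (z.1 - x0.1)
      have e : (z - rp2 l x0 z).1 = z.1 - x0.1 - r1 l (z.1 - x0.1) := by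
        show z.1 - (x0.1 + r1 l (z.1 - x0.1)) = _
        ring
      rw [e]
      exact this
    · have := r1_mem hN hl (z.2 - x0.2)
      have e : (z - rp2 l x0 z).2 = z.2 - x0.2 - r1 l (z.2 - x0.2) := by
        show z.2 - (x0.2 + r1 l (z.2 - x0.2)) = _
        ring
      rw [e]
      exact this
  per z a ha := by
    have h1 := (AddSubgroup.mem_prod.1 ha).1
    have h2 := (AddSubgroup.mem_prod.1 ha).2
    unfold rp2
    have e1 : (z + a).1 - x0.1 = z.1 - x0.1 + a.1 := by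
      show z.1 + a.1 - x0.1 = _
      ring
    have e2 : (z + a).2 - x0.2 = z.2 - x0.2 + a.2 := by
      show z.2 + a.2 - x0.2 = _
      ring
    rw [e1, e2, r1_per hN hl _ _ h1, r1_per hN hl _ _ h2]

theorem rp2_self (hN : N = M * l) (hM : 0 < M) (hl : 0 < l) {x0 z : ZMod N × ZMod N}
    (h : tn (z - x0) < (l : ℝ) / 2) : rp2 l x0 z = z := by
  have h1 := (fst_le_tn (z - x0)).trans_lt h
  have h2 := (snd_le_tn (z - x0)).trans_lt h
  unfold rp2
  rw [Prod.fst_sub] at h1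
  rw [Prod.snd_sub] at h2
  rw [r1_self hN hM hl h1, r1_self hN hM hl h2]
  ext
  · show x0.1 + (z.1 - x0.1) = z.1
    ring
  · show x0.2 + (z.2 - x0.2) = z.2
    ring

end cell

end Vale.Agent.P159.TM.H215
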