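import Vale.Agent.P159.TM.H215.Tor
import Vale.Agent.P159.TM.H104.Neutral
import Vale.Agent.P159.TM.Spec.C

/-!
# P159, row C3 : clustering in blocks, hats, the final statements on the torus
-/

set_option linter.all false

open Finset
open scoped Real

namespace Vale.Agent.P159.TM.H215

open Vale.Agent.P159.TM
open Vale.Agent.P159.TM.H859 (tn rep nz)
open Vale.Agent.P159.TM.H365 (qq rr pt node node2 cor d1 phi)

section blocks

variable {V ι : Type*} [AddCommGroup V] [Fintype V] [DecidableEq V] [Fintype ι] [DecidableEq ι]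

/-- far pairs, summed over blocks -/
theorem far_sum {nm : V → ℝ} (hn : IsNm nm) {blk : V → ι} {ctr : ι → V} {r0 R K : ℝ}
    (hblk : ∀ z, nm (z - ctr (blk z)) ≤ r0) (hR : 0 ≤ R - 2 * r0) (hK : 0 ≤ K)
    {G : V → V → ℝ} (hG : ∀ z y, 0 ≤ G z y)
    (hcl : ∀ i j, R - 2 * r0 < nm (ctr i - ctr j) →
      ∑ z ∈ univ.filter (fun z => blk z = i), ∑ y ∈ univ.filter (fun y => blk y = j), G z y ≤ K) :
    ∑ z, ∑ y, (if R < nm (z - y) then G z y else 0) ≤ (Fintype.card ι : ℝ) ^ 2 * K := by
  have e1 : ∑ z, ∑ y, (if R < nm (z - y) then G z y else 0)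
      = ∑ i, ∑ j, ∑ z ∈ univ.filter (fun z => blk z = i), ∑ y ∈ univ.filter (fun y => blk y = j),
        (if R < nm (z - y) then G z y else 0) := by
    have h1 : ∀ z, ∑ y, (if R < nm (z - y) then G z y else 0)
        = ∑ j, ∑ y ∈ univ.filter (fun y => blk y = j), (if R < nm (z - y) then G z y else 0) :=
      fun z => (Finset.sum_fiberwise _ _ _).symm
    calc ∑ z, ∑ y, (if R < nm (z - y) then G z y else 0)
        = ∑ i, ∑ z ∈ univ.filter (fun z => blk z = i),
            ∑ y, (if R < nm (z - y) then G z y else 0) := (Finset.sum_fiberwise _ _ _).symm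
      _ = _ := by
          refine Finset.sum_congr rfl fun i _ => ?_
          rw [Finset.sum_comm' (s := univ.filter (fun z => blk z = i)) (t := fun _ => univ)
            (t' := univ) (s' := fun _ => univ.filter (fun z => blk z = i))]
          · rw [← Finset.sum_fiberwise univ blk]
            refine Finset.sum_congr rfl fun j _ => ?_
            rw [Finset.sum_comm]
          · intro x y
            simp
  rw [e1]
  have e2 : ∀ i j, ∑ z ∈ univ.filter (fun z => blk z = i), ∑ y ∈ univ.filter (fun y => blk y = j),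
        (if R < nm (z - y) then G z y else 0) ≤ K := by
    intro i j
    by_cases h : R - 2 * r0 < nm (ctr i - ctr j)
    · refine le_trans ?_ (hcl i j h)
      refine Finset.sum_le_sum fun z _ => Finset.sum_le_sum fun y _ => ?_
      split_ifs
      · exact le_refl _
      · exact hG z y
    · have h2 : ∑ z ∈ univ.filter (fun z => blk z = i),
          ∑ y ∈ univ.filter (fun y => blk y = j), (if R < nm (z - y) then G z y else 0) = 0 := by
        refine Finset.sum_eq_zero fun z hz => Finset.sum_eq_zero fun y hy => ?_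
        rw [Finset.mem_filter] at hz hy
        rw [if_neg]
        intro h3
        apply h
        have h4 := hblk z
        have h5 := hblk y
        rw [hz.2] at h4
        rw [hy.2] at h5
        have h6 := hn.tri3 z (ctr i) y
        have h7 := hn.tri3 (ctr i) (ctr j) y
        rw [hn.sub_comm (ctr j) y] at h7
        linarith
      rw [h2]
      exact hK
  calc ∑ i, ∑ j, ∑ z ∈ univ.filter (fun z => blk z = i), ∑ y ∈ univ.filter (fun y => blk y = j),
        (if R < nm (z - y) then G z y else 0) ≤ ∑ i : ι, ∑ j : ι, K :=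
        Finset.sum_le_sum fun i _ => Finset.sum_le_sum fun j _ => e2 i j
    _ = (Fintype.card ι : ℝ) ^ 2 * K := by
        rw [Finset.sum_const, Finset.sum_const, Finset.card_univ, nsmul_eq_mul, nsmul_eq_mul]
        ring

end blocks

section torus

variable {N n ξ : ℕ} [NeZero N] [NeZero n]

/-- block of side `ξ` -/
def bk (ξ : ℕ) (z : ZMod N × ZMod N) : ZMod n × ZMod n := (qq ξ z.1, qq ξ z.2)

/-- centre of a block -/
def bc (N ξ : ℕ) {n : ℕ} (q : ZMod n × ZMod n) : ZMod N × ZMod N :=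
  (pt N ξ q.1 (ξ / 2), pt N ξ q.2 (ξ / 2))

theorem pt_sub (hN : N = n * ξ) (q : ZMod n) (k j : ℕ) :
    pt N ξ q k - pt N ξ q j = (((k : ℤ) - j : ℤ) : ZMod N) := by
  unfold pt
  push_cast
  ring

theorem bk_near (hN : N = n * ξ) (hξ : 0 < ξ) (z : ZMod N × ZMod N) :
    tn (z - bc N ξ (bk (n := n) ξ z)) ≤ ξ := by
  have h : ∀ x : ZMod N, ∃ a : ℤ, ((a : ℤ) : ZMod N) = x - pt N ξ (qq (n := n) ξ x) (ξ / 2) ∧
      |(a : ℝ)| ≤ (ξ : ℝ) / 2 := by
    intro x
    refine ⟨(rr ξ x : ℤ) - ((ξ / 2 : ℕ) : ℤ), ?_, ?_⟩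
    · have h1 := H365.pt_qq (n := n) hN hξ x
      have h2 := pt_sub hN (qq (n := n) ξ x) (rr ξ x) (ξ / 2)
      rw [h1] at h2
      exact h2.symm
    · have h1 := H365.rr_lt hξ x
      have h2 : 2 * (ξ / 2) ≤ ξ ∧ ξ ≤ 2 * (ξ / 2) + 1 := by omega
      have h3 : -(ξ : ℤ) ≤ 2 * ((rr ξ x : ℤ) - ((ξ / 2 : ℕ) : ℤ)) ∧
          2 * ((rr ξ x : ℤ) - ((ξ / 2 : ℕ) : ℤ)) ≤ ξ := by omega
      have h4 : (-(ξ : ℝ)) ≤ 2 * (((rr ξ x : ℤ) - ((ξ / 2 : ℕ) : ℤ) : ℤ) : ℝ) := by
        exact_mod_cast h3.1
      have h5 : 2 * (((rr ξ x : ℤ) - ((ξ / 2 : ℕ) : ℤ) : ℤ) : ℝ) ≤ ξ := by exact_mod_cast h3.2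
      rw [abs_le]
      constructor <;> linarith
  obtain ⟨a, ha, ha'⟩ := h z.1
  obtain ⟨b, hb, hb'⟩ := h z.2
  have := tn_le_of_int (x := z - bc N ξ (bk (n := n) ξ z)) (a := a) (b := b) (c := (ξ : ℝ) / 2)
    (by rw [ha]; rfl) (by rw [hb]; rfl) ha' hb'
  linarith

/-- the far part of the Hessian from the clustering `BOut` -/
theorem he_of_BOut (hN : N = n * ξ) (hξ : 0 < ξ) {w : (ZMod N × ZMod N → ℤ) → ℝ}
    (hW : H871.Wt w) (hS : H871.Sup w) {L Cb cb : ℝ} (hCb : 0 ≤ Cb) (hcb : 0 ≤ cb)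
    (hB : SpecC.BOut w ξ L Cb cb) {R : ℝ} (hR : 2 ≤ R)
    {g : ZMod N × ZMod N → ℝ} (hg : SpecC.LipT L g) :
    ∑ z, ∑ y, (if R * ξ < tn (z - y) then |Hs w (SpecC.ms (ξ : ℝ)) g z y| else 0)
      ≤ (n : ℝ) ^ 4 * (Cb * Real.exp (-(cb * (R - 2)))) := by
  obtain ⟨Wb, hwb⟩ := hW.bdd
  have hξ' : (0 : ℝ) < ξ := by exact_mod_cast hξ
  have hm : ∀ x : ZMod N × ZMod N, 0 < SpecC.ms (N := N) (ξ : ℝ) x := by
    intro x
    unfold SpecC.ms
    positivity
  set ε : ℝ := 1 / (ξ : ℝ) ^ 2 with hε
  set K : ℝ := Cb * Real.exp (-(cb * (R - 2))) with hK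
  have hK0 : 0 ≤ K := mul_nonneg hCb (Real.exp_pos _).le
  set G : (ZMod N × ZMod N) → (ZMod N × ZMod N) → ℝ := fun z y =>
    if z = y then 0 else ε * ε *
      H104.Cf w (SpecC.ms (ξ : ℝ)) g (fun h => (h z : ℝ)) (fun h => (h y : ℝ)) with hGd
  have hCf : ∀ z y : ZMod N × ZMod N, z ≠ y →
      0 ≤ H104.Cf w (SpecC.ms (ξ : ℝ)) g (fun h => (h z : ℝ)) (fun h => (h y : ℝ)) := by
    intro z y hzy
    exact H104.Cf_nonneg hW hm hS g hzy
  have hG0 : ∀ z y, 0 ≤ G z y := by
    intro z y
    rw [hGd]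
    show 0 ≤ (if z = y then (0:ℝ) else _)
    split_ifs with h
    · exact le_refl _
    · exact mul_nonneg (mul_self_nonneg _) (hCf z y h)
  have e1 : ∀ z y, (if R * ξ < tn (z - y) then |Hs w (SpecC.ms (ξ : ℝ)) g z y| else 0)
      = if R * ξ < tn (z - y) then G z y else 0 := by
    intro z y
    by_cases h : R * ξ < tn (z - y)
    · rw [if_pos h, if_pos h]
      have hzy : z ≠ y := by
        intro h2
        rw [h2, sub_self, tn_zero] at h
        nlinarith
      rw [hGd]
      show |Hs w (SpecC.ms (ξ : ℝ)) g z y| = if z = y then 0 else _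
      rw [if_neg hzy]
      unfold Hs
      rw [if_neg hzy, zero_sub, abs_neg, abs_of_nonneg]
      · rfl
      · exact mul_nonneg (mul_nonneg (hm z).le (hm y).le) (hCf z y hzy)
    · rw [if_neg h, if_neg h]
  simp only [e1]
  have key := far_sum isNm_tn (blk := bk (n := n) ξ) (ctr := bc N ξ) (r0 := (ξ : ℝ))
    (R := R * ξ) (K := K) (bk_near hN hξ) (by nlinarith) hK0 hG0 ?_
  · refine key.trans_eq ?_
    rw [Fintype.card_prod, ZMod.card]
    push_cast
    ring
  · intro i j hij
    have hne : i ≠ j := by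
      intro h
      rw [h, sub_self, tn_zero] at hij
      nlinarith
    set u : ZMod N × ZMod N → ℝ := fun z => if bk (n := n) ξ z = i then 1 else 0 with hu
    set v : ZMod N × ZMod N → ℝ := fun z => if bk (n := n) ξ z = j then 1 else 0 with hv
    have hB1 := hB g hg (bc N ξ i) (bc N ξ j) u v
      (fun x => by rw [hu]; show 0 ≤ (if _ then (1:ℝ) else 0) ∧ (if _ then (1:ℝ) else 0) ≤ 1; split_ifs <;> norm_num)
      (fun x => by rw [hv]; show 0 ≤ (if _ then (1:ℝ) else 0) ∧ (if _ then (1:ℝ) else 0) ≤ 1; split_ifs <;> norm_num)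
      (fun x hx => by
        have : bk (n := n) ξ x = i := by
          by_contra h
          exact hx (if_neg h)
        rw [← this]
        exact bk_near hN hξ x)
      (fun x hx => by
        have : bk (n := n) ξ x = j := by
          by_contra h
          exact hx (if_neg h)
        rw [← this]
        exact bk_near hN hξ x)
    have e2 : H104.Cf w (SpecC.ms (ξ : ℝ)) g (H870.lin (SpecC.ms (ξ : ℝ)) u)
          (H870.lin (SpecC.ms (ξ : ℝ)) v)
        = ∑ z ∈ univ.filter (fun z => bk (n := n) ξ z = i),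
          ∑ y ∈ univ.filter (fun y => bk (n := n) ξ y = j), G z y := by
      have h1 : H104.Cf w (SpecC.ms (ξ : ℝ)) g (H870.lin (SpecC.ms (ξ : ℝ)) u)
          (H870.lin (SpecC.ms (ξ : ℝ)) v) = ∑ z, ∑ y, u z * v y * (ε * ε *
            H104.Cf w (SpecC.ms (ξ : ℝ)) g (fun h => (h z : ℝ)) (fun h => (h y : ℝ))) := by
        have h2 : H104.Cf w (SpecC.ms (ξ : ℝ)) g (H870.lin (SpecC.ms (ξ : ℝ)) u)
            (H870.lin (SpecC.ms (ξ : ℝ)) v)
            = ∑ z, ε * u z * H104.Cf w (SpecC.ms (ξ : ℝ)) g (fun h => (h z : ℝ))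
                (H870.lin (SpecC.ms (ξ : ℝ)) v) := by
          have hcomm : ∀ F F' : (ZMod N × ZMod N → ℤ) → ℝ,
              H104.Cf w (SpecC.ms (ξ : ℝ)) g F F' = H104.Cf w (SpecC.ms (ξ : ℝ)) g F' F := by
            intro F F'
            rw [H104.Cf_eq, H104.Cf_eq, H104.Cv_comm]
          have hμ := H104.em_bw hm hW.nonneg hwb hW.pos
          unfold H104.Cf
          rw [ex_lin hm hW.nonneg hwb hW.pos g u]
          have h3 := ex_sum hm hW.nonneg hwb hW.pos univ
            (fun z => SpecC.ms (N := N) (ξ : ℝ) z * u z)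
            (fun z h => (h z : ℝ) * H870.lin (SpecC.ms (ξ : ℝ)) v h)
            (fun z => (gr_site z).mul (by rw [H104.lin_li]; exact H104.Gr.li _)) g
          have e3 : (fun h : ZMod N × ZMod N → ℤ => H870.lin (SpecC.ms (ξ : ℝ)) u h
              * H870.lin (SpecC.ms (ξ : ℝ)) v h)
              = fun h => ∑ z, SpecC.ms (N := N) (ξ : ℝ) z * u z
                * ((h z : ℝ) * H870.lin (SpecC.ms (ξ : ℝ)) v h) := by
            funext h
            unfold H870.lin
            rw [Finset.sum_mul]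
            refine Finset.sum_congr rfl fun z _ => ?_
            ring
          rw [e3, h3, Finset.sum_mul, ← Finset.sum_sub_distrib]
          refine Finset.sum_congr rfl fun z _ => ?_
          show ε * u z * _ - u z * (ε * _) * _ = _
          ring
        rw [h2]
        refine Finset.sum_congr rfl fun z _ => ?_
        rw [cf_lin hm hW.nonneg hwb hW.pos, Finset.mul_sum]
        refine Finset.sum_congr rfl fun y _ => ?_
        show ε * u z * (ε * v y * _) = _
        ring
      rw [h1, Finset.sum_filter]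
      refine Finset.sum_congr rfl fun z _ => ?_
      by_cases hz : bk (n := n) ξ z = i
      · rw [if_pos hz, Finset.sum_filter]
        refine Finset.sum_congr rfl fun y _ => ?_
        by_cases hy : bk (n := n) ξ y = j
        · have hzy : z ≠ y := by
            intro h
            rw [h] at hz
            exact hne (hz.symm.trans hy)
          rw [if_pos hy, hGd, hu, hv]
          show (if bk (n := n) ξ z = i then (1:ℝ) else 0) * (if bk (n := n) ξ y = j then 1 else 0)
            * _ = if z = y then 0 else _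
          rw [if_pos hz, if_pos hy, if_neg hzy, one_mul, one_mul]
        · rw [if_neg hy, hv]
          show u z * (if bk (n := n) ξ y = j then (1:ℝ) else 0) * _ = 0
          rw [if_neg hy, mul_zero, zero_mul]
      · rw [if_neg hz]
        refine Finset.sum_eq_zero fun y _ => ?_
        rw [hu]
        show (if bk (n := n) ξ z = i then (1:ℝ) else 0) * _ * _ = 0
        rw [if_neg hz, zero_mul, zero_mul]
    rw [← e2]
    refine hB1.trans ?_
    apply mul_le_mul_of_nonneg_left _ hCb
    apply Real.exp_le_exp.2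
    apply neg_le_neg
    rw [mul_div_assoc]
    apply mul_le_mul_of_nonneg_left _ hcb
    rw [le_div_iff₀ hξ']
    linarith

end torus

end Vale.Agent.P159.TM.H215
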