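import Vale.Agent.P159.TM.H215.Ident

/-!
# P159, row TI (TRI2 of 825) : third derivative as a trilinear form over blocks

`T` a kernel of three variables whose sum over each slot vanishes, `β : V → ι` a partition into
blocks, `|T[a,b,c]| ≤ K i j k` whenever `|a| ≤ 1_{B_i}`, `|b| ≤ 1_{B_j}`, `|c| ≤ 1_{B_k}`.  Then
`|T[ψ,ψ,ψ]| ≤ 3 ∑ K i j k (osc ψ)³` for every `ψ`.
-/

set_option linter.all false

open Finset

namespace Vale.Agent.P159.TM.H215

variable {V ι : Type*} [Fintype V] [Fintype ι] [DecidableEq ι]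

/-- the trilinear form of a kernel -/
def tri (T : V → V → V → ℝ) (a b c : V → ℝ) : ℝ := ∑ x, ∑ y, ∑ z, T x y z * (a x * b y * c z)

theorem tri_smul (T : V → V → V → ℝ) (a b c : V → ℝ) (r s t : ℝ) :
    tri T (fun x => r * a x) (fun x => s * b x) (fun x => t * c x) = r * s * t * tri T a b c := by
  unfold tri
  rw [Finset.mul_sum]
  refine Finset.sum_congr rfl fun x _ => ?_
  rw [Finset.mul_sum]
  refine Finset.sum_congr rfl fun y _ => ?_
  rw [Finset.mul_sum]
  refine Finset.sum_congr rfl fun z _ => ?_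
  ring

/-- homogeneous form of the hypothesis -/
theorem tri_le {T : V → V → V → ℝ} {β : V → ι} {K : ι → ι → ι → ℝ}
    (hK : ∀ i j k a b c, (∀ x, |a x| ≤ if β x = i then 1 else 0) →
      (∀ x, |b x| ≤ if β x = j then 1 else 0) → (∀ x, |c x| ≤ if β x = k then 1 else 0) →
      |tri T a b c| ≤ K i j k)
    (i j k : ι) {a b c : V → ℝ} {A B C : ℝ} (hA : 0 ≤ A) (hB : 0 ≤ B) (hC : 0 ≤ C)
    (ha : ∀ x, |a x| ≤ if β x = i then A else 0) (hb : ∀ x, |b x| ≤ if β x = j then B else 0)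
    (hc : ∀ x, |c x| ≤ if β x = k then C else 0) :
    |tri T a b c| ≤ A * B * C * K i j k := by
  have hK0 : 0 ≤ K i j k := by
    refine (abs_nonneg _).trans (hK i j k (fun _ => 0) (fun _ => 0) (fun _ => 0) ?_ ?_ ?_)
    all_goals
      intro x
      rw [abs_zero]
      split_ifs <;> norm_num
  -- normalisation
  have norm1 : ∀ (a : V → ℝ) (A : ℝ) (i : ι), 0 ≤ A → (∀ x, |a x| ≤ if β x = i then A else 0) →
      ∃ a' : V → ℝ, (∀ x, |a' x| ≤ if β x = i then 1 else 0) ∧ ∀ x, a x = A * a' x := by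
    intro a A i hA ha
    rcases eq_or_lt_of_le hA with h0 | h0
    · refine ⟨fun _ => 0, ?_, ?_⟩
      · intro x
        rw [abs_zero]
        split_ifs <;> norm_num
      · intro x
        have := ha x
        rw [← h0] at this
        have h1 : |a x| ≤ 0 := by
          refine this.trans ?_
          split_ifs <;> exact le_refl _
        rw [mul_zero]
        exact abs_eq_zero.1 (le_antisymm h1 (abs_nonneg _))
    · refine ⟨fun x => a x / A, ?_, ?_⟩
      · intro x
        rw [abs_div, abs_of_pos h0, div_le_iff₀ h0]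
        refine (ha x).trans ?_
        split_ifs <;> simp
      · intro x
        field_simp
  obtain ⟨a', ha', ea⟩ := norm1 a A i hA ha
  obtain ⟨b', hb', eb⟩ := norm1 b B j hB hb
  obtain ⟨c', hc', ec⟩ := norm1 c C k hC hc
  have e : tri T a b c = A * B * C * tri T a' b' c' := by
    rw [← tri_smul]
    unfold tri
    simp only [ea, eb, ec]
  rw [e, abs_mul, abs_of_nonneg (mul_nonneg (mul_nonneg hA hB) hC)]
  exact mul_le_mul_of_nonneg_left (hK i j k a' b' c' ha' hb' hc')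
    (mul_nonneg (mul_nonneg hA hB) hC)

/-- one triple of blocks -/
theorem tri_block {T : V → V → V → ℝ} {β : V → ι} {K : ι → ι → ι → ℝ}
    (hK : ∀ i j k a b c, (∀ x, |a x| ≤ if β x = i then 1 else 0) →
      (∀ x, |b x| ≤ if β x = j then 1 else 0) → (∀ x, |c x| ≤ if β x = k then 1 else 0) →
      |tri T a b c| ≤ K i j k)
    (i j k : ι) (f : V → ℝ) {c0 O : ℝ} (hO : 0 ≤ O)
    (hf : ∀ x, β x = i ∨ β x = j ∨ β x = k → |f x - c0| ≤ O) :
    |∑ x, ∑ y, ∑ z, T x y z * ((if β x = i then 1 else 0) * (if β y = j then 1 else 0) *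
        (if β z = k then 1 else 0) * ((f x - f y) ^ 2 * (f z - (f x + f y) / 2)))|
      ≤ 6 * (O ^ 3 * K i j k) := by
  set u : V → ℝ := fun x => f x - c0 with hu
  set p : ι → ℕ → V → ℝ := fun i n x => (if β x = i then 1 else 0) * u x ^ n with hp
  have hpow : ∀ (l : ι) (n : ℕ), (l = i ∨ l = j ∨ l = k) →
      ∀ x, |p l n x| ≤ if β x = l then O ^ n else 0 := by
    intro l n hl x
    rw [hp]
    show |(if β x = l then (1:ℝ) else 0) * u x ^ n| ≤ _
    by_cases h : β x = l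
    · rw [if_pos h, if_pos h, one_mul, abs_pow]
      apply pow_le_pow_left₀ (abs_nonneg _)
      apply hf
      rw [h]
      exact hl
    · rw [if_neg h, if_neg h, zero_mul, abs_zero]
  have hi : i = i ∨ i = j ∨ i = k := Or.inl rfl
  have hj : j = i ∨ j = j ∨ j = k := Or.inr (Or.inl rfl)
  have hk : k = i ∨ k = j ∨ k = k := Or.inr (Or.inr rfl)
  have hpw : ∀ n : ℕ, 0 ≤ O ^ n := fun n => pow_nonneg hO n
  have bd : ∀ l m n : ℕ, l + m + n = 3 →
      |tri T (p i l) (p j m) (p k n)| ≤ O ^ 3 * K i j k := by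
    intro l m n hlmn
    have := tri_le hK i j k (hpw l) (hpw m) (hpw n) (hpow i l hi) (hpow j m hj) (hpow k n hk)
    rw [← pow_add, ← pow_add, hlmn] at this
    exact this
  have e : ∑ x, ∑ y, ∑ z, T x y z * ((if β x = i then 1 else 0) * (if β y = j then 1 else 0) *
        (if β z = k then 1 else 0) * ((f x - f y) ^ 2 * (f z - (f x + f y) / 2)))
      = tri T (p i 2) (p j 0) (p k 1) - 2 * tri T (p i 1) (p j 1) (p k 1)
        + tri T (p i 0) (p j 2) (p k 1) - (1 / 2) * tri T (p i 3) (p j 0) (p k 0)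
        + (1 / 2) * tri T (p i 2) (p j 1) (p k 0) + (1 / 2) * tri T (p i 1) (p j 2) (p k 0)
        - (1 / 2) * tri T (p i 0) (p j 3) (p k 0) := by
    unfold tri
    simp only [Finset.mul_sum, ← Finset.sum_add_distrib, ← Finset.sum_sub_distrib]
    refine Finset.sum_congr rfl fun x _ => Finset.sum_congr rfl fun y _ =>
      Finset.sum_congr rfl fun z _ => ?_
    rw [hp, hu]
    ring
  rw [e]
  have b1 := abs_le.1 (bd 2 0 1 (by norm_num))
  have b2 := abs_le.1 (bd 1 1 1 (by norm_num))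
  have b3 := abs_le.1 (bd 0 2 1 (by norm_num))
  have b4 := abs_le.1 (bd 3 0 0 (by norm_num))
  have b5 := abs_le.1 (bd 2 1 0 (by norm_num))
  have b6 := abs_le.1 (bd 1 2 0 (by norm_num))
  have b7 := abs_le.1 (bd 0 3 0 (by norm_num))
  rw [abs_le]
  constructor
  · linarith [b1.1, b1.2, b2.1, b2.2, b3.1, b3.2, b4.1, b4.2, b5.1, b5.2, b6.1, b6.2, b7.1, b7.2]
  · linarith [b1.1, b1.2, b2.1, b2.2, b3.1, b3.2, b4.1, b4.2, b5.1, b5.2, b6.1, b6.2, b7.1, b7.2]

/-- **(TRI2)** -/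
theorem tri2 {T : V → V → V → ℝ} (h1 : ∀ y z, ∑ x, T x y z = 0)
    (h2 : ∀ x z, ∑ y, T x y z = 0) (h3 : ∀ x y, ∑ z, T x y z = 0)
    {β : V → ι} {K : ι → ι → ι → ℝ}
    (hK : ∀ i j k a b c, (∀ x, |a x| ≤ if β x = i then 1 else 0) →
      (∀ x, |b x| ≤ if β x = j then 1 else 0) → (∀ x, |c x| ≤ if β x = k then 1 else 0) →
      |tri T a b c| ≤ K i j k)
    (f : V → ℝ) {O : ι → ι → ι → ℝ} (hO : ∀ i j k, 0 ≤ O i j k)
    (hf : ∀ i j k, ∃ c0, ∀ x, β x = i ∨ β x = j ∨ β x = k → |f x - c0| ≤ O i j k) :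
    |tri T f f f| ≤ 3 * ∑ i, ∑ j, ∑ k, K i j k * O i j k ^ 3 := by
  have e1 : tri T f f f = -(1 / 2) * ∑ x, ∑ y, ∑ z,
      T x y z * ((f x - f y) ^ 2 * (f z - (f x + f y) / 2)) := third_id T h1 h2 h3 f
  set F : V × V × V → ℝ := fun p =>
    T p.1 p.2.1 p.2.2 * ((f p.1 - f p.2.1) ^ 2 * (f p.2.2 - (f p.1 + f p.2.1) / 2)) with hF
  set δ : V × V × V → ι × ι × ι → ℝ := fun p q =>
    (if β p.1 = q.1 then 1 else 0) * (if β p.2.1 = q.2.1 then 1 else 0) *
      (if β p.2.2 = q.2.2 then 1 else 0) with hδ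
  have e2 : ∑ x, ∑ y, ∑ z, T x y z * ((f x - f y) ^ 2 * (f z - (f x + f y) / 2))
      = ∑ p, F p := by
    rw [Fintype.sum_prod_type]
    refine Finset.sum_congr rfl fun x _ => ?_
    rw [Fintype.sum_prod_type]
  have s3 : ∀ p, ∑ q, δ p q = 1 := by
    intro p
    rw [Finset.sum_eq_single (β p.1, β p.2.1, β p.2.2)]
    · simp [hδ]
    · intro q _ hq
      rw [hδ]
      show (if β p.1 = q.1 then (1:ℝ) else 0) * (if β p.2.1 = q.2.1 then 1 else 0) *
        (if β p.2.2 = q.2.2 then 1 else 0) = 0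
      by_cases h1 : β p.1 = q.1
      · by_cases h2 : β p.2.1 = q.2.1
        · by_cases h3 : β p.2.2 = q.2.2
          · exact absurd (Prod.ext h1.symm (Prod.ext h2.symm h3.symm)) hq
          · rw [if_neg h3, mul_zero]
        · rw [if_neg h2, mul_zero, zero_mul]
      · rw [if_neg h1, zero_mul, zero_mul]
    · intro h
      exact absurd (Finset.mem_univ _) h
  have e3 : ∑ p, F p = ∑ q, ∑ p, δ p q * F p := by
    rw [Finset.sum_comm]
    refine Finset.sum_congr rfl fun p _ => ?_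
    rw [← Finset.sum_mul, s3, one_mul]
  have e4 : ∑ q, ∑ p, δ p q * F p = ∑ i, ∑ j, ∑ k, ∑ p, δ p (i, j, k) * F p := by
    rw [Fintype.sum_prod_type]
    refine Finset.sum_congr rfl fun i _ => ?_
    rw [Fintype.sum_prod_type]
  have e5 : ∀ i j k, |∑ p, δ p (i, j, k) * F p| ≤ 6 * (O i j k ^ 3 * K i j k) := by
    intro i j k
    obtain ⟨c0, hc0⟩ := hf i j k
    have := tri_block hK i j k f (hO i j k) hc0
    have e6 : ∑ p, δ p (i, j, k) * F p = ∑ x, ∑ y, ∑ z, T x y z * ((if β x = i then 1 else 0) *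
        (if β y = j then 1 else 0) * (if β z = k then 1 else 0) *
          ((f x - f y) ^ 2 * (f z - (f x + f y) / 2))) := by
      rw [Fintype.sum_prod_type]
      refine Finset.sum_congr rfl fun x _ => ?_
      rw [Fintype.sum_prod_type]
      refine Finset.sum_congr rfl fun y _ => Finset.sum_congr rfl fun z _ => ?_
      rw [hδ, hF]
      show (if β x = i then (1:ℝ) else 0) * (if β y = j then 1 else 0) *
        (if β z = k then 1 else 0) * (T x y z * ((f x - f y) ^ 2 * (f z - (f x + f y) / 2))) = _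
      ring
    rw [e6]
    exact this
  rw [e1, e2, e3, e4, abs_mul, abs_neg, abs_of_pos (by norm_num : (0:ℝ) < 1 / 2)]
  have e7 : |∑ i, ∑ j, ∑ k, ∑ p, δ p (i, j, k) * F p|
      ≤ ∑ i, ∑ j, ∑ k, 6 * (O i j k ^ 3 * K i j k) := by
    refine (Finset.abs_sum_le_sum_abs _ _).trans (Finset.sum_le_sum fun i _ => ?_)
    refine (Finset.abs_sum_le_sum_abs _ _).trans (Finset.sum_le_sum fun j _ => ?_)
    refine (Finset.abs_sum_le_sum_abs _ _).trans (Finset.sum_le_sum fun k _ => ?_)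
    exact e5 i j k
  have e8 : ∑ i, ∑ j, ∑ k, 6 * (O i j k ^ 3 * K i j k)
      = 6 * ∑ i, ∑ j, ∑ k, K i j k * O i j k ^ 3 := by
    simp only [Finset.mul_sum]
    refine Finset.sum_congr rfl fun i _ => Finset.sum_congr rfl fun j _ =>
      Finset.sum_congr rfl fun k _ => ?_
    ring
  rw [e8] at e7
  linarith

/-- the bilinear form over blocks: `|H[ψ₁,ψ₂]| ≤ 2 ∑ K i j osc ψ₁ osc ψ₂` -/
theorem bil2 {H : V → V → ℝ} (hrow : ∀ x, ∑ y, H x y = 0) (hcol : ∀ y, ∑ x, H x y = 0)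
    {β : V → ι} {K : ι → ι → ℝ}
    (hK : ∀ i j, ∑ x, ∑ y, (if β x = i ∧ β y = j then |H x y| else 0) ≤ K i j)
    (f g : V → ℝ) {O P : ι → ι → ℝ}
    (hO : ∀ i j, 0 ≤ O i j) (hP : ∀ i j, 0 ≤ P i j)
    (hf : ∀ x y, |f x - f y| ≤ O (β x) (β y))
    (hg : ∀ x y, |g x - g y| ≤ P (β x) (β y)) (hsym : ∀ x y, H x y = H y x) :
    |∑ x, ∑ y, H x y * f x * g y| ≤ (1 / 2) * ∑ i, ∑ j, K i j * (O i j * P i j) := by
  refine (hess_abs H hsym hrow f g).trans ?_
  apply mul_le_mul_of_nonneg_left _ (by norm_num)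
  have e1 : ∑ x, ∑ y, |H x y| * (|f x - f y| * |g x - g y|)
      ≤ ∑ x, ∑ y, |H x y| * (O (β x) (β y) * P (β x) (β y)) := by
    refine Finset.sum_le_sum fun x _ => Finset.sum_le_sum fun y _ => ?_
    apply mul_le_mul_of_nonneg_left _ (abs_nonneg _)
    exact mul_le_mul (hf x y) (hg x y) (abs_nonneg _) (hO _ _)
  refine e1.trans ?_
  have e2 : ∀ x y, |H x y| * (O (β x) (β y) * P (β x) (β y))
      = ∑ i, ∑ j, (if β x = i ∧ β y = j then |H x y| else 0) * (O i j * P i j) := by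
    intro x y
    rw [Finset.sum_eq_single (β x)]
    · rw [Finset.sum_eq_single (β y)]
      · rw [if_pos ⟨rfl, rfl⟩]
      · intro j _ hj
        rw [if_neg (fun h => hj h.2.symm), zero_mul]
      · intro h
        exact absurd (Finset.mem_univ _) h
    · intro i _ hi
      apply Finset.sum_eq_zero
      intro j _
      rw [if_neg (fun h => hi h.1.symm), zero_mul]
    · intro h
      exact absurd (Finset.mem_univ _) h
  have e3 : ∑ x, ∑ y, |H x y| * (O (β x) (β y) * P (β x) (β y))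
      = ∑ i, ∑ j, ∑ x, ∑ y, (if β x = i ∧ β y = j then |H x y| else 0) * (O i j * P i j) := by
    simp only [e2]
    calc ∑ x, ∑ y, ∑ i, ∑ j, (if β x = i ∧ β y = j then |H x y| else 0) * (O i j * P i j)
        = ∑ p : V × V, ∑ q : ι × ι, (if β p.1 = q.1 ∧ β p.2 = q.2 then |H p.1 p.2| else 0)
            * (O q.1 q.2 * P q.1 q.2) := by
          rw [Fintype.sum_prod_type]
          refine Finset.sum_congr rfl fun x _ => Finset.sum_congr rfl fun y _ => ?_
          rw [Fintype.sum_prod_type]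
      _ = ∑ q : ι × ι, ∑ p : V × V, (if β p.1 = q.1 ∧ β p.2 = q.2 then |H p.1 p.2| else 0)
            * (O q.1 q.2 * P q.1 q.2) := Finset.sum_comm
      _ = _ := by
          rw [Fintype.sum_prod_type]
          refine Finset.sum_congr rfl fun i _ => Finset.sum_congr rfl fun j _ => ?_
          rw [Fintype.sum_prod_type]
  rw [e3]
  refine Finset.sum_le_sum fun i _ => Finset.sum_le_sum fun j _ => ?_
  have e4 : ∑ x, ∑ y, (if β x = i ∧ β y = j then |H x y| else 0) * (O i j * P i j)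
      = (∑ x, ∑ y, (if β x = i ∧ β y = j then |H x y| else 0)) * (O i j * P i j) := by
    simp only [Finset.sum_mul]
  rw [e4]
  exact mul_le_mul_of_nonneg_right (hK i j) (mul_nonneg (hO i j) (hP i j))

end Vale.Agent.P159.TM.H215
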