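import Mathlib

/-!
# P159 : two constants estimate for the derivative at the centre of a real segment

`f` holomorphic near the closed disc of radius `2 r`, `|f| ≤ B` there, `|f| ≤ d` on the real
segment `[-r, r]`, `0 < d ≤ B`.  Then `|f' 0| ≤ 3 d (1 + log (B / d)) / r`.
-/

set_option linter.all false

open Complex Metric Set

namespace Vale.Agent.P159.TM.H215

/-- `|sin θ| ≤ 2` on the strip `|Im θ| ≤ 1` -/
theorem norm_sin_le {θ : ℂ} (h : |θ.im| ≤ 1) : ‖Complex.sin θ‖ ≤ 2 := by
  have h1 : ‖Complex.exp (-θ * I)‖ ≤ Real.exp 1 := by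
    rw [Complex.norm_exp]
    apply Real.exp_le_exp.2
    have : (-θ * I).re = θ.im := by simp
    rw [this]
    exact (abs_le.1 h).2
  have h2 : ‖Complex.exp (θ * I)‖ ≤ Real.exp 1 := by
    rw [Complex.norm_exp]
    apply Real.exp_le_exp.2
    have : (θ * I).re = -θ.im := by simp
    rw [this]
    have := (abs_le.1 h).1
    linarith
  have h1' : ‖Complex.exp (-θ * I)‖ = Real.exp θ.im := by
    rw [Complex.norm_exp]
    congr 1
    simp
  have h2' : ‖Complex.exp (θ * I)‖ = Real.exp (-θ.im) := by
    rw [Complex.norm_exp]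
    congr 1
    simp
  have h3 : ‖Complex.sin θ‖ ≤ (Real.exp θ.im + Real.exp (-θ.im)) / 2 := by
    rw [Complex.sin, norm_div, norm_mul, Complex.norm_I, mul_one, Complex.norm_ofNat]
    have := norm_sub_le (Complex.exp (-θ * I)) (Complex.exp (θ * I))
    rw [h1', h2'] at this
    linarith
  have h4 : (Real.exp θ.im + Real.exp (-θ.im)) / 2 = Real.cosh θ.im := (Real.cosh_eq _).symm
  rw [h4] at h3
  have h5 : Real.cosh θ.im ≤ Real.cosh 1 := by
    rw [Real.cosh_le_cosh]
    rw [abs_one]
    exact h
  have h6 : Real.cosh 1 ≤ 2 := by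
    rw [Real.cosh_eq]
    have e1 := Real.exp_one_lt_d9
    have e2 : Real.exp (-1) ≤ 1 := by
      rw [Real.exp_le_one_iff]
      norm_num
    linarith
  linarith

/-- three lines on the upper strip -/
theorem three {f : ℂ → ℂ} {r B d : ℝ} (hr : 0 < r)
    (hf : DifferentiableOn ℂ f (closedBall 0 (2 * r)))
    (hfc : ∀ z ∈ closedBall (0 : ℂ) (2 * r), ‖f z‖ ≤ B)
    (hfd : ∀ x : ℝ, |x| ≤ r → ‖f x‖ ≤ d)
    (hop : ∀ z ∈ closedBall (0 : ℂ) (2 * r), DifferentiableAt ℂ f z)
    {w : ℂ} (hw0 : 0 ≤ w.re) (hw1 : w.re ≤ 1) :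
    ‖f (r * Complex.sin (I * w))‖ ≤ d ^ (1 - w.re) * B ^ w.re := by
  have him : ∀ z : ℂ, (I * z).im = z.re := by
    intro z
    simp
  have hre : ∀ z : ℂ, (I * z).re = -z.im := by
    intro z
    simp
  have hmem : ∀ z : ℂ, |z.re| ≤ 1 → (r : ℂ) * Complex.sin (I * z) ∈ closedBall (0 : ℂ) (2 * r) := by
    intro z hz
    rw [mem_closedBall_zero_iff, norm_mul, Complex.norm_real, Real.norm_eq_abs, abs_of_pos hr]
    have := norm_sin_le (θ := I * z) (by rw [him]; exact hz)
    nlinarith
  have habs : ∀ z : ℂ, 0 ≤ z.re → z.re ≤ 1 → |z.re| ≤ 1 := by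
    intro z h1 h2
    rw [abs_of_nonneg h1]
    exact h2
  have hdiff : ∀ z : ℂ, 0 ≤ z.re → z.re ≤ 1 →
      DifferentiableAt ℂ (fun z => f (r * Complex.sin (I * z))) z := by
    intro z h1 h2
    have e := hop _ (hmem z (habs z h1 h2))
    have : DifferentiableAt ℂ (fun z : ℂ => (r : ℂ) * Complex.sin (I * z)) z := by fun_prop
    exact e.comp z this
  have key := Complex.HadamardThreeLines.norm_le_interp_of_mem_verticalClosedStrip₀₁'
    (f := fun z => f (r * Complex.sin (I * z))) (z := w) (a := d) (b := B) ?_ ?_ ?_ ?_ ?_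
  · exact key
  · exact ⟨hw0, hw1⟩
  · refine ⟨?_, ?_⟩
    · intro z hz
      have hz' : 0 < z.re ∧ z.re < 1 := hz
      exact (hdiff z hz'.1.le hz'.2.le).differentiableWithinAt
    · intro z hz
      have hz' : z ∈ Complex.HadamardThreeLines.verticalClosedStrip 0 1 := by
        have h1 : closure (Complex.HadamardThreeLines.verticalStrip 0 1)
            ⊆ Complex.HadamardThreeLines.verticalClosedStrip 0 1 := by
          apply closure_minimal
          · intro y hy
            exact ⟨le_of_lt hy.1, le_of_lt hy.2⟩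
          · exact isClosed_Icc.preimage Complex.continuous_re
        exact h1 hz
      exact (hdiff z hz'.1 hz'.2).continuousAt.continuousWithinAt
  · refine ⟨B, ?_⟩
    rintro x ⟨z, hz, rfl⟩
    exact hfc _ (hmem z (habs z hz.1 hz.2))
  · intro z hz
    have hz0 : z.re = 0 := hz
    have e : I * z = ((-z.im : ℝ) : ℂ) := by
      apply Complex.ext
      · simp
      · simp [hz0]
    show ‖f (r * Complex.sin (I * z))‖ ≤ d
    rw [e, ← Complex.ofReal_sin, ← Complex.ofReal_mul]
    apply hfd
    rw [abs_mul, abs_of_pos hr]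
    have := Real.abs_sin_le_one (-z.im)
    nlinarith
  · intro z hz
    have hz1 : z.re = 1 := hz
    show ‖f (r * Complex.sin (I * z))‖ ≤ B
    exact hfc _ (hmem z (by rw [hz1]; norm_num))

/-- **two constants estimate** for the derivative at `0` -/
theorem two_const {f : ℂ → ℂ} {r B d : ℝ} (hr : 0 < r) (hd : 0 < d) (hdB : d ≤ B)
    (hop : ∀ z ∈ closedBall (0 : ℂ) (2 * r), DifferentiableAt ℂ f z)
    (hfc : ∀ z ∈ closedBall (0 : ℂ) (2 * r), ‖f z‖ ≤ B)
    (hfd : ∀ x : ℝ, |x| ≤ r → ‖f x‖ ≤ d) :
    ‖deriv f 0‖ ≤ 3 * d * (1 + Real.log (B / d)) / r := by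
  have hB : 0 < B := hd.trans_le hdB
  have hfD : DifferentiableOn ℂ f (closedBall 0 (2 * r)) :=
    fun z hz => (hop z hz).differentiableWithinAt
  set L : ℝ := 1 + Real.log (B / d) with hL
  have hlog : 0 ≤ Real.log (B / d) := Real.log_nonneg ((one_le_div hd).2 hdB)
  have hL1 : 1 ≤ L := by linarith
  have hL0 : 0 < L := by linarith
  -- the function of the angle
  set g : ℂ → ℂ := fun θ => f (r * Complex.sin θ) with hg
  have hgb : ∀ θ : ℂ, |θ.im| ≤ 1 → ‖g θ‖ ≤ d * (B / d) ^ |θ.im| := by
    intro θ hθ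
    have hpow : ∀ t : ℝ, d ^ (1 - t) * B ^ t = d * (B / d) ^ t := by
      intro t
      rw [Real.rpow_sub hd, Real.rpow_one, Real.div_rpow hB.le hd.le]
      ring
    rcases le_total 0 θ.im with h | h
    · have e : I * (-I * θ) = θ := by
        rw [← mul_assoc, mul_neg, I_mul_I]
        simp
      have hre : (-I * θ).re = θ.im := by simp
      have := three (w := -I * θ) hr hfD hfc hfd hop (by rw [hre]; exact h)
        (by rw [hre]; exact (abs_le.1 hθ).2)
      rw [e, hre] at this
      rw [abs_of_nonneg h, ← hpow]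
      exact this
    · -- reflect
      have hop' : ∀ z ∈ closedBall (0 : ℂ) (2 * r), DifferentiableAt ℂ (fun z => f (-z)) z := by
        intro z hz
        have h1 : -z ∈ closedBall (0 : ℂ) (2 * r) := by
          rw [mem_closedBall_zero_iff, norm_neg]
          rw [mem_closedBall_zero_iff] at hz
          exact hz
        have := hop _ h1
        exact this.comp z (differentiableAt_id.neg)
      have hfc' : ∀ z ∈ closedBall (0 : ℂ) (2 * r), ‖(fun z => f (-z)) z‖ ≤ B := by
        intro z hz
        apply hfc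
        rw [mem_closedBall_zero_iff, norm_neg]
        rw [mem_closedBall_zero_iff] at hz
        exact hz
      have hfd' : ∀ x : ℝ, |x| ≤ r → ‖(fun z => f (-z)) (x : ℂ)‖ ≤ d := by
        intro x hx
        have := hfd (-x) (by rw [abs_neg]; exact hx)
        simpa using this
      have hfD' : DifferentiableOn ℂ (fun z => f (-z)) (closedBall 0 (2 * r)) :=
        fun z hz => (hop' z hz).differentiableWithinAt
      have hre : (I * θ).re = -θ.im := by simp
      have := three (f := fun z => f (-z)) (w := I * θ) hr hfD' hfc' hfd' hop'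
        (by rw [hre]; linarith) (by rw [hre]; have := (abs_le.1 hθ).1; linarith)
      have e : I * (I * θ) = -θ := by
        rw [← mul_assoc, I_mul_I]
        ring
      rw [e, hre, Complex.sin_neg, mul_neg, neg_neg] at this
      rw [abs_of_nonpos h, ← hpow]
      exact this
  have hgd : ∀ θ : ℂ, |θ.im| ≤ 1 → DifferentiableAt ℂ g θ := by
    intro θ hθ
    have h1 : (r : ℂ) * Complex.sin θ ∈ closedBall (0 : ℂ) (2 * r) := by
      rw [mem_closedBall_zero_iff, norm_mul, Complex.norm_real, Real.norm_eq_abs, abs_of_pos hr]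
      have := norm_sin_le hθ
      nlinarith
    have e := hop _ h1
    have : DifferentiableAt ℂ (fun z : ℂ => (r : ℂ) * Complex.sin z) θ := by fun_prop
    exact e.comp θ this
  have him : ∀ θ : ℂ, ‖θ‖ ≤ 1 / L → |θ.im| ≤ 1 / L := fun θ h => (Complex.abs_im_le_norm θ).trans h
  have h1L : 1 / L ≤ 1 := by
    rw [div_le_one hL0]
    exact hL1
  have hcauchy : ‖deriv g 0‖ ≤ (d * Real.exp 1) / (1 / L) := by
    apply Complex.norm_deriv_le_of_forall_mem_sphere_norm_le (by positivity)
    · refine ⟨?_, ?_⟩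
      · intro z hz
        rw [mem_ball_zero_iff] at hz
        exact (hgd z ((him z hz.le).trans h1L)).differentiableWithinAt
      · intro z hz
        have hz' : z ∈ closedBall (0 : ℂ) (1 / L) := closure_ball_subset_closedBall hz
        rw [mem_closedBall_zero_iff] at hz'
        exact (hgd z ((him z hz').trans h1L)).continuousAt.continuousWithinAt
    · intro z hz
      rw [mem_sphere_zero_iff_norm] at hz
      have h2 := him z hz.le
      refine (hgb z (h2.trans h1L)).trans ?_
      apply mul_le_mul_of_nonneg_left _ hd.le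
      have hBd : 1 ≤ B / d := (one_le_div hd).2 hdB
      calc (B / d) ^ |z.im| ≤ (B / d) ^ (1 / L) := Real.rpow_le_rpow_of_exponent_le hBd h2
        _ = Real.exp (Real.log (B / d) * (1 / L)) := by
            rw [Real.rpow_def_of_pos (by positivity)]
        _ ≤ Real.exp 1 := by
            apply Real.exp_le_exp.2
            rw [mul_one_div, div_le_one hL0]
            linarith
  have hderiv : deriv g 0 = deriv f 0 * r := by
    have h0 : (r : ℂ) * Complex.sin 0 = 0 := by simp
    have h1 : HasDerivAt f (deriv f 0) ((r : ℂ) * Complex.sin 0) := by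
      rw [h0]
      exact (hop 0 (by simp; positivity)).hasDerivAt
    have h2 : HasDerivAt (fun z : ℂ => (r : ℂ) * Complex.sin z) ((r : ℂ) * Complex.cos 0) 0 :=
      (Complex.hasDerivAt_sin 0).const_mul _
    have h3 := h1.comp (0 : ℂ) h2
    rw [Complex.cos_zero, mul_one] at h3
    exact h3.deriv
  rw [hderiv, norm_mul, Complex.norm_real, Real.norm_eq_abs, abs_of_pos hr] at hcauchy
  rw [le_div_iff₀ hr]
  refine hcauchy.trans ?_
  rw [div_div_eq_mul_div, div_one]
  have e3 : Real.exp 1 ≤ 3 := by
    have := Real.exp_one_lt_d9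
    linarith
  have : d * Real.exp 1 * L ≤ d * 3 * L := by
    apply mul_le_mul_of_nonneg_right _ hL0.le
    exact mul_le_mul_of_nonneg_left e3 hd.le
  linarith

end Vale.Agent.P159.TM.H215
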