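import Vale.Agent.P159.TM.H215.Model
import Vale.Agent.P159.TM.H871.Inst

/-!
# P159, row C3 : the variance bound in every real background, from (E1)

`vr_le` : `s² Var_f (∑ m χ h) ≤ exp (s² ∑ m χ² + κ) - 1` for every real background `f`.
-/

set_option linter.all false

open Finset

namespace Vale.Agent.P159.TM.H215

open Vale.Agent.P159.TM

variable {V : Type*} [Fintype V]

section

variable {w : (V → ℤ) → ℝ} {m : V → ℝ} {Wb : ℝ}

section gen
variable (hm : ∀ x, 0 < m x) (hw0 : ∀ h, 0 ≤ w h) (hwb : ∀ h, w h ≤ Wb) (hp : ∃ h, 0 < w h)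

include hm hw0 hwb hp

theorem vr_le_mgf (f χ : V → ℝ) (s : ℝ) {K : ℝ}
    (hK : H870.Ex w m f (fun h => Real.exp (s * H870.lin m χ h))
      * H870.Ex w m f (fun h => Real.exp (-(s * H870.lin m χ h))) ≤ K) :
    s ^ 2 * H870.Vr w m f χ ≤ K - 1 := by
  have hμ := H104.em_bw hm hw0 hwb hp
  set X : (V → ℤ) → ℝ := H870.lin m χ with hX
  have hXg : H104.Gr X := by
    rw [hX, H104.lin_li]
    exact H104.Gr.li _
  have hgp : ∀ c : ℝ, H104.Gr (fun h => Real.exp (c * X h)) := by
    intro c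
    have h1 := H104.Gr.exp_li (c • H104.mf m χ)
    have e : (fun h : V → ℤ => Real.exp (H104.li (c • H104.mf m χ) h))
        = fun h => Real.exp (c * X h) := by
      funext h
      rw [H104.li_smul, hX, H104.lin_li]
    rwa [e] at h1
  set μ := H870.Ex w m f X with hμX
  set A := H870.Ex w m f (fun h => Real.exp (s * X h)) with hA
  set B := H870.Ex w m f (fun h => Real.exp (-(s * X h))) with hB
  have gB : H104.Gr (fun h => Real.exp (-(s * X h))) := by
    have := hgp (-s)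
    simpa using this
  -- `1 ≤ e^{-sμ} A`, `1 ≤ e^{sμ} B`
  have j1 : 1 ≤ Real.exp (-(s * μ)) * A := by
    have h1 : H870.Ex w m f (fun h => 1 + s * (X h - μ))
        ≤ H870.Ex w m f (fun h => Real.exp (-(s * μ)) * Real.exp (s * X h)) := by
      rw [H104.Ex_eq, H104.Ex_eq]
      refine H104.Ex_mono hμ ((H104.Gr.const 1).add ((hXg.sub (H104.Gr.const μ)).cmul s))
        ((hgp s).cmul _) ?_ _
      intro h
      rw [← Real.exp_add]
      have := Real.add_one_le_exp (-(s * μ) + s * X h)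
      linarith
    rw [H104.Ex_eq, H104.Ex_add hμ (H104.Gr.const 1) ((hXg.sub (H104.Gr.const μ)).cmul s),
      H104.Ex_const hμ, H104.Ex_cmul, H104.Ex_sub hμ hXg (H104.Gr.const μ), H104.Ex_const hμ,
      ← H104.Ex_eq, ← hμX, sub_self, mul_zero, add_zero, H104.Ex_eq, H104.Ex_cmul,
      ← H104.Ex_eq] at h1
    exact h1
  have j2 : 1 ≤ Real.exp (s * μ) * B := by
    have h1 : H870.Ex w m f (fun h => 1 + (-s) * (X h - μ))
        ≤ H870.Ex w m f (fun h => Real.exp (s * μ) * Real.exp (-(s * X h))) := by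
      rw [H104.Ex_eq, H104.Ex_eq]
      refine H104.Ex_mono hμ ((H104.Gr.const 1).add ((hXg.sub (H104.Gr.const μ)).cmul (-s)))
        (gB.cmul _) ?_ _
      intro h
      rw [← Real.exp_add]
      have := Real.add_one_le_exp (s * μ + -(s * X h))
      linarith
    rw [H104.Ex_eq, H104.Ex_add hμ (H104.Gr.const 1) ((hXg.sub (H104.Gr.const μ)).cmul (-s)),
      H104.Ex_const hμ, H104.Ex_cmul, H104.Ex_sub hμ hXg (H104.Gr.const μ), H104.Ex_const hμ,
      ← H104.Ex_eq, ← hμX, sub_self, mul_zero, add_zero, H104.Ex_eq, H104.Ex_cmul,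
      ← H104.Ex_eq] at h1
    exact h1
  -- second moment
  have h2 : H870.Ex w m f (fun h => 2 + s ^ 2 * ((X h - μ) * (X h - μ)))
      ≤ Real.exp (-(s * μ)) * A + Real.exp (s * μ) * B := by
    have h3 : H870.Ex w m f (fun h => 2 + s ^ 2 * ((X h - μ) * (X h - μ)))
        ≤ H870.Ex w m f (fun h => Real.exp (-(s * μ)) * Real.exp (s * X h)
          + Real.exp (s * μ) * Real.exp (-(s * X h))) := by
      rw [H104.Ex_eq, H104.Ex_eq]
      refine H104.Ex_mono hμ ((H104.Gr.const 2).add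
        (((hXg.sub (H104.Gr.const μ)).mul (hXg.sub (H104.Gr.const μ))).cmul (s ^ 2)))
        (((hgp s).cmul _).add (gB.cmul _)) ?_ _
      intro h
      rw [← Real.exp_add, ← Real.exp_add]
      have := H551.cosh_low (s * (X h - μ))
      rw [Real.cosh_eq] at this
      have e1 : -(s * μ) + s * X h = s * (X h - μ) := by ring
      have e2 : s * μ + -(s * X h) = -(s * (X h - μ)) := by ring
      rw [e1, e2]
      nlinarith
    refine h3.trans_eq ?_
    rw [H104.Ex_eq, H104.Ex_add hμ ((hgp s).cmul _) (gB.cmul _), H104.Ex_cmul, H104.Ex_cmul,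
      ← H104.Ex_eq, ← H104.Ex_eq]
  have h4 : H870.Ex w m f (fun h => 2 + s ^ 2 * ((X h - μ) * (X h - μ)))
      = 2 + s ^ 2 * H870.Vr w m f χ := by
    rw [H104.Ex_eq, H104.Ex_add hμ (H104.Gr.const 2)
        (((hXg.sub (H104.Gr.const μ)).mul (hXg.sub (H104.Gr.const μ))).cmul (s ^ 2)),
      H104.Ex_const hμ, H104.Ex_cmul]
    congr 2
    have e5 : (fun h => (X h - μ) * (X h - μ))
        = fun h => (X h * X h - (2 * μ) * X h) + μ ^ 2 := by
      funext h
      ring
    rw [e5, H104.Ex_add hμ ((hXg.mul hXg).sub (hXg.cmul (2 * μ))) (H104.Gr.const _),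
      H104.Ex_sub hμ (hXg.mul hXg) (hXg.cmul (2 * μ)), H104.Ex_cmul, H104.Ex_const hμ,
      ← H104.Ex_eq, ← H104.Ex_eq, ← hμX]
    unfold H870.Vr
    rw [← hX, ← hμX]
    have e6 : (fun h => X h * X h) = fun h => X h ^ 2 := by
      funext h
      ring
    rw [e6]
    ring
  rw [h4] at h2
  have h5 : (Real.exp (-(s * μ)) * A) * (Real.exp (s * μ) * B) = A * B := by
    have : Real.exp (-(s * μ)) * Real.exp (s * μ) = 1 := by
      rw [← Real.exp_add, neg_add_cancel, Real.exp_zero]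
    calc (Real.exp (-(s * μ)) * A) * (Real.exp (s * μ) * B)
        = (Real.exp (-(s * μ)) * Real.exp (s * μ)) * (A * B) := by ring
      _ = A * B := by rw [this, one_mul]
  nlinarith [mul_nonneg (sub_nonneg.2 j1) (sub_nonneg.2 j2)]

end gen

open H871 in
/-- the variance bound -/
theorem vr_le (hW : H871.Wt w) (hm : ∀ x, 0 < m x) (hs : ∀ h, w (h + 1) = w h)
    (hS : H871.Sup w) (hev : ∀ h, w (-h) = w h) (hG : H871.Gin w m) (f χ : V → ℝ) (s : ℝ) :
    s ^ 2 * H870.Vr w m f χ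
      ≤ Real.exp (s ^ 2 * ∑ x, m x * χ x ^ 2 + H871.kap w m) - 1 := by
  obtain ⟨Wb, hwb⟩ := hW.bdd
  have hZ : H870.Zr w m f = H871.Z w m f := rfl
  have hZ0 : 0 < H871.Z w m f := hW.Z_pos hm f
  refine vr_le_mgf hm hW.nonneg hwb hW.pos f χ s ?_
  have key := H871.mgf_kap hW hm hs hS hev hG f (fun x => s * (m x * χ x))
  have e1 : ∀ h : V → ℤ, ∑ x, s * (m x * χ x) * (h x : ℝ) = s * H870.lin m χ h := by
    intro h
    unfold H870.lin
    rw [Finset.mul_sum]
    exact Finset.sum_congr rfl fun x _ => by ring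
  have e2 : ∑ x, (s * (m x * χ x)) ^ 2 / m x = s ^ 2 * ∑ x, m x * χ x ^ 2 := by
    rw [Finset.mul_sum]
    refine Finset.sum_congr rfl fun x _ => ?_
    have := (hm x).ne'
    field_simp
  simp only [e1] at key
  rw [e2] at key
  unfold H870.Ex
  rw [hZ, div_mul_div_comm, div_le_iff₀ (mul_pos hZ0 hZ0), ← pow_two]
  exact key

end

end Vale.Agent.P159.TM.H215
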